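import Vale.Agent.P157.Full.Defs
import Vale.Agent.P157.Full.UDefs
import Vale.Agent.P157.Lim.Main
import Vale.Agent.P157.Par.UpperMix

/-!
The system of site fields over one fixed positive base weight on configurations, and what the envelope
takes from the field modules. The coupling enters through the base weight; its average is taken outside.
-/

open MeasureTheory ProbabilityTheory Real Finset Filter
open scoped Topology
open Vale.Agent.P150 (gauss dot)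
open Vale.Agent.P168.MP (lin logZ0 Batch ET gainCap)
open Vale.Agent.P157.Full (MarkX spinX pwX cfg blockVec lamVec lamPath tailAvg psiH)
open Vale.Agent.P157.Par (Site Ix adev ovK qlev spins)
open Vale.Agent.P157.Lim (wt)

namespace Vale.Agent.P166.Gen.Up

variable {N n S : ℕ} [NeZero N] {ι : Type} {β : ι → Batch}

/-- the base weight and the site fields -/
noncomputable def fieldB (bw : (Fin N → Bool) → ℝ) (R₀ k : ℕ) (lam : Fin R₀ → ℝ)
    (z : Fin N × Ix (k * R₀) n → ℝ) (p : List (Site N (n + 1))) : ℝ :=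
  bw (spins (k * R₀) p) * exp (dot (lamVec R₀ k lam p) z)

/-- the perturbed weight -/
noncomputable def wB [Fintype ι] (bw : (Fin N → Bool) → ℝ) (R₀ k S : ℕ) (β : ι → Batch) (h u : ι → ℝ)
    (lam : Fin R₀ → ℝ) (z : Fin N × Ix (k * R₀) n → ℝ) : List (MarkX (Site N (n + 1)) N S β) → ℝ :=
  pwX cfg (k * R₀) (fieldB bw R₀ k lam z) h u

/-- the random log partition function -/
noncomputable def FB [Fintype ι] [DecidableEq ι] (bw : (Fin N → Bool) → ℝ) (R₀ k S : ℕ) (β : ι → Batch)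
    (h u : ι → ℝ) (lam : Fin R₀ → ℝ) (z : Fin N × Ix (k * R₀) n → ℝ) : ℝ :=
  logZ0 (k * R₀) (lin (k * R₀)) (wB bw R₀ k S β h u lam z)

/-- the random field energy of block `j` -/
noncomputable def HB [Fintype ι] [DecidableEq ι] (bw : (Fin N → Bool) → ℝ) (R₀ k S : ℕ) (β : ι → Batch)
    (h u : ι → ℝ) (lam : Fin R₀ → ℝ) (z : Fin N × Ix (k * R₀) n → ℝ) (j : Fin R₀) : ℝ :=
  ET (k * R₀) (lin (k * R₀)) (wB bw R₀ k S β h u lam z) [(0, 0)]
    fun ps => dot (blockVec (k * R₀) k j ((ps.getD 0 []).map Prod.fst)) z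

/-- the random mean overlap -/
noncomputable def rB [Fintype ι] [DecidableEq ι] (bw : (Fin N → Bool) → ℝ) (R₀ k S : ℕ) (β : ι → Batch)
    (h u : ι → ℝ) (lam : Fin R₀ → ℝ) (z : Fin N × Ix (k * R₀) n → ℝ) : ℕ → ℝ :=
  qlev (k * R₀) (wB bw R₀ k S β h u lam z) (spinX cfg (k * R₀))

/-- the mean over the fields -/
noncomputable def meanZ {R : ℕ} (F : (Fin N × Ix R n → ℝ) → ℝ) : ℝ :=
  ∫ z, F z ∂gauss (Fin N × Ix R n)

/-- convexity and derivative in the amplitudes, Lipschitz dependence on the field -/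
def FieldB : Prop :=
  ∀ {R₀ k S N n : ℕ} [NeZero N] {ι : Type} [Fintype ι] [DecidableEq ι] {β : ι → Batch} {h u : ι → ℝ},
    1 ≤ R₀ → 1 ≤ k → ∀ (bw : (Fin N → Bool) → ℝ), (∀ σ, 0 < bw σ) → ∀ (lam : Fin R₀ → ℝ),
    (∀ z z' : Fin N × Ix (k * R₀) n → ℝ, |FB bw R₀ k S β h u lam z - FB bw R₀ k S β h u lam z'| ≤
      √(N * ∑ j, lam j ^ 2) * √(∑ x, (z x - z' x) ^ 2)) ∧
    ∀ (j : Fin R₀) (z : Fin N × Ix (k * R₀) n → ℝ),
      ConvexOn ℝ Set.univ (fun t => FB bw R₀ k S β h u (Function.update lam j t) z) ∧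
        HasDerivAt (fun t => FB bw R₀ k S β h u (Function.update lam j t) z)
          (HB bw R₀ k S β h u lam z j) (lam j)

/-- the two integrations by parts, uniformly in base weights with bounded logarithm -/
def IbpB : Prop :=
  ∀ (R₀ k S N : ℕ) [NeZero N] {ι : Type} [Fintype ι] [DecidableEq ι] {β : ι → Batch} {h u : ι → ℝ},
    1 ≤ R₀ → 1 ≤ k → (∀ j, |h j| ≤ 1) → (∀ j, |u j| ≤ 1) → ∀ (Λ C : ℝ) {ε : ℝ}, 0 < ε →
    ∀ᶠ n : ℕ in atTop, ∀ (bw : (Fin N → Bool) → ℝ), (∀ σ, 0 < bw σ) → (∀ σ, |log (bw σ)| ≤ C) →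
      ∀ (lam : Fin R₀ → ℝ), (∀ i, 0 ≤ lam i ∧ lam i ≤ Λ) → ∀ (j : Fin R₀),
      |meanZ (fun z => HB (n := n) bw R₀ k S β h u lam z j) -
        lam j * N * (1 - tailAvg (k * R₀) (j * k) fun l =>
          meanZ fun z => rB (n := n) bw R₀ k S β h u lam z l)| ≤ N * ε ∧
      |meanZ (fun z => HB (n := n) bw R₀ k S β h u lam z j *
          tailAvg (k * R₀) (j * k) (rB (n := n) bw R₀ k S β h u lam z)) -
        lam j * N * meanZ (fun z =>
          (1 - tailAvg (k * R₀) (j * k) (rB (n := n) bw R₀ k S β h u lam z)) *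
            tailAvg (k * R₀) (j * k) (rB (n := n) bw R₀ k S β h u lam z))| ≤
        N * (12 * |lam j| * meanZ (fun z =>
          adev (k * R₀) (wB (n := n) bw R₀ k S β h u lam z) (ovK (spinX cfg (k * R₀)))
            (rB (n := n) bw R₀ k S β h u lam z)) + ε)

/-- without a base weight the sites decouple -/
def ZeroB : Prop :=
  ∀ {R₀ k : ℕ}, 1 ≤ R₀ → 1 ≤ k → ∀ {ι : Type} [Fintype ι] [DecidableEq ι] (β : ι → Batch) (S : ℕ) (h u : ι → ℝ),
    (∀ j, |h j| ≤ 1) → (∀ j, |u j| ≤ 1) → ∀ (Λ : ℝ) {ε : ℝ}, 0 < ε →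
    ∀ᶠ n : ℕ in atTop, ∀ (N : ℕ) [NeZero N] (lam : Fin R₀ → ℝ), (∀ i, 0 ≤ lam i ∧ lam i ≤ Λ) →
      |meanZ (FB (N := N) (n := n) (fun _ => 1) R₀ k S β h u lam) -
        N * (psiH R₀ (lamPath lam) + lamPath lam R₀ / 2)| ≤ gainCap S β + N * ε

/-- the fields and the perturbation cost at most `gainCap` -/
def GeB : Prop :=
  ∀ {R₀ k S N n : ℕ} [NeZero N], 1 ≤ R₀ → 1 ≤ k →
    ∀ {ι : Type} [Fintype ι] [DecidableEq ι] (β : ι → Batch) (h u : ι → ℝ),
    (∀ j, |h j| ≤ 1) → (∀ j, |u j| ≤ 1) → ∀ (bw : (Fin N → Bool) → ℝ), (∀ σ, 0 < bw σ) →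
    ∀ (lam : Fin R₀ → ℝ),
      log (∑ σ, wt N σ * bw σ) - gainCap S β ≤ meanZ (FB (n := n) bw R₀ k S β h u lam)

end Vale.Agent.P166.Gen.Up
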