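import Vale.Agent.P157.Full.EnvMax
import Vale.Agent.P157.Full.EnvOverlap
import Vale.Agent.P157.Full.FieldBase
import Vale.Agent.P166.Gen.Up.Defs

/-! Means over strengths, shifts and fields, and the crude bounds of the field system over a fixed base. -/

open MeasureTheory ProbabilityTheory Real Finset Filter
open Vale.Agent.P150 (gauss dot l1 l1_nonneg abs_dot_le)
open Vale.Agent.P168.MP (lin ET Batch gain1 gainCap avg avg_le_avg avg_const logZ0 ok_lin)
open Vale.Agent.P157.Full (MarkX spinX pwX plain cfg blockVec lamVec lamSum tailAvg abs_gain_plain)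
open Vale.Agent.P157.Par (Site Ix Prof adev ovK qlev spins)

namespace Vale.Agent.P166.Gen.Up

/-! ### means -/

section means

variable {N n R : ℕ} [NeZero N] {A : Type} [Fintype A]

/-- integrable functions of the field -/
def IntZ (F : (Fin N × Ix R n → ℝ) → ℝ) : Prop := Integrable F (gauss (Fin N × Ix R n))

/-- the mean over a finite index and the field -/
noncomputable def EZ (F : A → (Fin N × Ix R n → ℝ) → ℝ) : ℝ := avg fun a => meanZ (F a)

omit [NeZero N] in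
lemma intZ_const (c : ℝ) : IntZ (fun _ : Fin N × Ix R n → ℝ => c) := integrable_const c

omit [NeZero N] in
lemma intZ_of_bound {F : (Fin N × Ix R n → ℝ) → ℝ} (hc : Continuous F) {C : ℝ} (hb : ∀ z, |F z| ≤ C) :
    IntZ F :=
  Integrable.of_bound hc.aestronglyMeasurable C (Eventually.of_forall fun z => (Real.norm_eq_abs _).trans_le (hb z))

omit [NeZero N] in
lemma intZ_of_l1 {F : (Fin N × Ix R n → ℝ) → ℝ} (hc : Continuous F) {A C : ℝ} (hb : ∀ z, |F z| ≤ A + C * l1 z) :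
    IntZ F :=
  ((integrable_const A).add (P157.Par.integrable_l1.const_mul C)).mono' hc.aestronglyMeasurable
    (Eventually.of_forall fun z => (Real.norm_eq_abs _).trans_le (hb z))

omit [NeZero N] in
lemma IntZ.addF {F G : (Fin N × Ix R n → ℝ) → ℝ} (hF : IntZ F) (hG : IntZ G) : IntZ fun z => F z + G z :=
  Integrable.add hF hG

omit [NeZero N] in
lemma IntZ.subF {F G : (Fin N × Ix R n → ℝ) → ℝ} (hF : IntZ F) (hG : IntZ G) : IntZ fun z => F z - G z :=
  Integrable.sub hF hG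

omit [NeZero N] in
lemma IntZ.absF {F : (Fin N × Ix R n → ℝ) → ℝ} (hF : IntZ F) : IntZ fun z => |F z| :=
  Integrable.abs hF

variable {F G : A → (Fin N × Ix R n → ℝ) → ℝ}

omit [NeZero N] in
lemma EZ_add (hF : ∀ a, IntZ (F a)) (hG : ∀ a, IntZ (G a)) :
    EZ (fun a z => F a z + G a z) = EZ F + EZ G := by
  simp only [EZ, avg, meanZ, integral_add (hF _) (hG _), sum_add_distrib, add_div]

omit [NeZero N] in
lemma EZ_sub (hF : ∀ a, IntZ (F a)) (hG : ∀ a, IntZ (G a)) :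
    EZ (fun a z => F a z - G a z) = EZ F - EZ G := by
  simp only [EZ, avg, meanZ, integral_sub (hF _) (hG _), sum_sub_distrib, sub_div]

omit [NeZero N] in
lemma EZ_const_mul (c : ℝ) : EZ (fun a z => c * F a z) = c * EZ F := by
  simp only [EZ, avg, meanZ, integral_const_mul, ← mul_sum, mul_div_assoc]

omit [NeZero N] in
lemma EZ_div_const (c : ℝ) : EZ (fun a z => F a z / c) = EZ F / c := by
  simp only [EZ, avg, meanZ, integral_div, ← sum_div]
  rw [div_div, div_div, mul_comm]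

omit [NeZero N] in
lemma EZ_sum {κ : Type} (s : Finset κ) {F : κ → A → (Fin N × Ix R n → ℝ) → ℝ} (hF : ∀ i ∈ s, ∀ a, IntZ (F i a)) :
    EZ (fun a z => ∑ i ∈ s, F i a z) = ∑ i ∈ s, EZ (F i) := by
  simp only [EZ, avg, meanZ, integral_finsetSum s fun i hi => hF i hi _]
  rw [sum_comm, sum_div]

omit [NeZero N] in
lemma EZ_mono (hF : ∀ a, IntZ (F a)) (hG : ∀ a, IntZ (G a)) (h : ∀ a z, F a z ≤ G a z) : EZ F ≤ EZ G :=
  avg_le_avg fun a => integral_mono (hF a) (hG a) (h a)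

omit [NeZero N] in
lemma EZ_const [Nonempty A] (c : ℝ) : EZ (A := A) (fun _ (_ : Fin N × Ix R n → ℝ) => c) = c := by
  simp only [EZ, meanZ, integral_const, probReal_univ, one_smul, avg_const]

omit [NeZero N] in
lemma abs_EZ_le (hF : ∀ a, IntZ (F a)) : |EZ F| ≤ EZ fun a z => |F a z| :=
  abs_le.2 ⟨by
    have := EZ_mono (F := fun a z => (-1) * |F a z|) (fun a => (hF a).abs.const_mul _) hF
      fun a z => by linarith [neg_abs_le (F a z)]
    rw [EZ_const_mul] at this; linarith,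
    EZ_mono hF (fun a => (hF a).abs) fun a z => le_abs_self _⟩

end means

/-! ### the system -/

variable {N n S R₀ k : ℕ} [NeZero N] {ι : Type} [Fintype ι] [DecidableEq ι] {β : ι → Batch} {h u u' : ι → ℝ}
  {bw bw' : (Fin N → Bool) → ℝ} {lam : Fin R₀ → ℝ}

lemma wB_pos (hb : ∀ σ, 0 < bw σ) (z : Fin N × Ix (k * R₀) n → ℝ) (p : List (MarkX (Site N (n + 1)) N S β)) :
    0 < wB bw R₀ k S β h u lam z p :=
  mul_pos (mul_pos (hb _) (exp_pos _)) (exp_pos _)

lemma continuous_wB (p : List (MarkX (Site N (n + 1)) N S β)) :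
    Continuous fun z : Fin N × Ix (k * R₀) n → ℝ => wB bw R₀ k S β h u lam z p := by
  unfold wB pwX fieldB
  exact (continuous_const.mul (continuous_exp.comp (P157.Par.continuous_dot_left _))).mul continuous_const

lemma continuous_FB (hb : ∀ σ, 0 < bw σ) :
    Continuous fun z : Fin N × Ix (k * R₀) n → ℝ => FB bw R₀ k S β h u lam z :=
  P157.Par.continuous_logZ0 continuous_wB (fun z p => wB_pos hb z p) _

lemma continuous_HB (hb : ∀ σ, 0 < bw σ) (j : Fin R₀) :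
    Continuous fun z : Fin N × Ix (k * R₀) n → ℝ => HB bw R₀ k S β h u lam z j :=
  P157.Par.continuous_ET continuous_wB (fun z p => wB_pos hb z p) _ _
    fun _ => P157.Par.continuous_dot_left _

lemma abs_HB_le (hb : ∀ σ, 0 < bw σ) (z : Fin N × Ix (k * R₀) n → ℝ) (j : Fin R₀) :
    |HB bw R₀ k S β h u lam z j| ≤ l1 z :=
  Vale.Agent.P168.MP.ET_bound (wB_pos hb z) fun _ =>
    (abs_dot_le (P157.Full.abs_blockVec_le _ _ _ _) z).trans_eq (one_mul _)

lemma intZ_HB (hb : ∀ σ, 0 < bw σ) (j : Fin R₀) :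
    IntZ fun z => HB (n := n) bw R₀ k S β h u lam z j :=
  intZ_of_l1 (continuous_HB hb j) (A := 0) (C := 1) fun z => by simpa using abs_HB_le hb z j

lemma rB_prof (hb : ∀ σ, 0 < bw σ) (z : Fin N × Ix (k * R₀) n → ℝ) :
    Prof (k * R₀) (rB bw R₀ k S β h u lam z) 1 ∧ rB bw R₀ k S β h u lam z (k * R₀) = 1 :=
  P157.Par.qlev_prof (wB_pos hb z)

lemma continuous_rB (hb : ∀ σ, 0 < bw σ) (l : ℕ) :
    Continuous fun z : Fin N × Ix (k * R₀) n → ℝ => rB bw R₀ k S β h u lam z l :=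
  P157.Par.continuous_ET continuous_wB (fun z p => wB_pos hb z p) _ _ fun _ => continuous_const

lemma intZ_rB (hb : ∀ σ, 0 < bw σ) (l : ℕ) : IntZ fun z => rB (n := n) bw R₀ k S β h u lam z l :=
  intZ_of_bound (continuous_rB hb l) fun z => P157.Par.abs_qlev_le (wB_pos hb z) l

/-- the mean deviation of the overlap kernel -/
noncomputable def adB (bw : (Fin N → Bool) → ℝ) (R₀ k S : ℕ) (β : ι → Batch) (h u : ι → ℝ)
    (lam : Fin R₀ → ℝ) (z : Fin N × Ix (k * R₀) n → ℝ) : ℝ :=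
  adev (k * R₀) (wB bw R₀ k S β h u lam z) (ovK (spinX cfg (k * R₀))) (rB bw R₀ k S β h u lam z)

lemma continuous_adB (hb : ∀ σ, 0 < bw σ) :
    Continuous fun z : Fin N × Ix (k * R₀) n → ℝ => adB bw R₀ k S β h u lam z := by
  have hd : ∀ j, Continuous fun z : Fin N × Ix (k * R₀) n → ℝ =>
      P157.Par.devOf (k * R₀) (wB bw R₀ k S β h u lam z) (ovK (spinX cfg (k * R₀)))
        (rB bw R₀ k S β h u lam z) j := fun j =>
    P157.Par.continuous_ET continuous_wB (fun z p => wB_pos hb z p) _ _ fun _ =>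
      (continuous_const.sub (continuous_rB hb j)).abs
  unfold adB adev
  exact ((continuous_finsetSum _ fun j _ => hd j).div_const _).add (hd _)

lemma adB_mem (hb : ∀ σ, 0 < bw σ) (hR : 1 ≤ k * R₀) (z : Fin N × Ix (k * R₀) n → ℝ) :
    0 ≤ adB bw R₀ k S β h u lam z ∧ adB bw R₀ k S β h u lam z ≤ 6 := by
  have hw := wB_pos (S := S) (β := β) (h := h) (u := u) (lam := lam) hb z
  refine ⟨P157.Par.adev_nonneg hw _ _, ?_⟩
  have h1 := P157.Par.abs_dlv_le hw hR (spinX cfg (k * R₀)) (k * R₀)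
  have h2 := P157.Par.devOf_nonneg hw (R := k * R₀) (ovK (spinX cfg (k * R₀)))
    (rB bw R₀ k S β h u lam z) (k * R₀)
  simp only [P157.Par.dlv] at h1
  simp only [adB, rB] at *
  linarith [(abs_le.1 h1).2]

lemma intZ_adB (hb : ∀ σ, 0 < bw σ) (hR : 1 ≤ k * R₀) : IntZ (adB (n := n) bw R₀ k S β h u lam) :=
  intZ_of_bound (continuous_adB hb) fun z => by
    rw [abs_of_nonneg (adB_mem hb hR z).1]; exact (adB_mem hb hR z).2

/-- two bases and two strengths -/
lemma abs_FB_sub (hb : ∀ σ, 0 < bw σ) (hb' : ∀ σ, 0 < bw' σ) {Δ : ℝ}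
    (hΔ : ∀ σ, |log (bw σ) - log (bw' σ)| ≤ Δ) (hR : 1 ≤ k * R₀) (hh : ∀ j, |h j| ≤ 1) (hu : ∀ j, |u j| ≤ 1)
    (hu' : ∀ j, |u' j| ≤ 1) (z : Fin N × Ix (k * R₀) n → ℝ) :
    |FB bw R₀ k S β h u lam z - FB bw' R₀ k S β h u' lam z| ≤ Δ + 2 * gainCap S β := by
  refine P157.Full.Fld.abs_logZ0_sub_le (ok_lin hR (wB_pos hb' z)) (wB_pos hb z) fun p _ => ?_
  simp only [wB, pwX, fieldB]
  rw [log_mul (mul_pos (hb _) (exp_pos _)).ne' (exp_pos _).ne', log_mul (hb _).ne' (exp_pos _).ne',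
    log_mul (mul_pos (hb' _) (exp_pos _)).ne' (exp_pos _).ne', log_mul (hb' _).ne' (exp_pos _).ne',
    log_exp, log_exp, log_exp]
  have h1 := abs_le.1 (abs_gain_plain (R := k * R₀) hh hu p)
  have h2 := abs_le.1 (abs_gain_plain (R := k * R₀) hh hu' p)
  have h3 := abs_le.1 (hΔ (spins (k * R₀) (p.map Prod.fst)))
  rw [abs_le]
  constructor <;> linarith

lemma abs_FB_le (hb : ∀ σ, 0 < bw σ) {C : ℝ} (hC : ∀ σ, |log (bw σ)| ≤ C) (hR : 1 ≤ k * R₀)
    (hh : ∀ j, |h j| ≤ 1) (hu : ∀ j, |u j| ≤ 1) (z : Fin N × Ix (k * R₀) n → ℝ) :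
    |FB bw R₀ k S β h u lam z| ≤ (C + gainCap S β) + lamSum lam * l1 z := by
  refine P157.Par.abs_logZ0_le (ok_lin hR (wB_pos hb z)) fun p => ?_
  simp only [wB, pwX, fieldB]
  rw [log_mul (mul_pos (hb _) (exp_pos _)).ne' (exp_pos _).ne', log_mul (hb _).ne' (exp_pos _).ne',
    log_exp, log_exp]
  refine (abs_add_le _ _).trans ?_
  refine le_trans (add_le_add ((abs_add_le _ _).trans (add_le_add (hC _)
    (abs_dot_le (P157.Full.abs_lamVec_le _) z))) (abs_gain_plain hh hu p)) (le_of_eq ?_)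
  ring

lemma exists_log_bound (bw : (Fin N → Bool) → ℝ) : ∃ C, ∀ σ, |log (bw σ)| ≤ C :=
  ⟨∑ σ, |log (bw σ)|, fun σ => single_le_sum (f := fun σ => |log (bw σ)|) (fun _ _ => abs_nonneg _) (mem_univ σ)⟩

lemma intZ_FB (hb : ∀ σ, 0 < bw σ) (hR : 1 ≤ k * R₀) (hh : ∀ j, |h j| ≤ 1) (hu : ∀ j, |u j| ≤ 1) :
    IntZ (FB (n := n) bw R₀ k S β h u lam) := by
  obtain ⟨C, hC⟩ := exists_log_bound bw
  exact intZ_of_l1 (continuous_FB hb) fun z => abs_FB_le hb hC hR hh hu z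

lemma abs_meanZ_FB_sub (hb : ∀ σ, 0 < bw σ) (hb' : ∀ σ, 0 < bw' σ) {Δ : ℝ}
    (hΔ : ∀ σ, |log (bw σ) - log (bw' σ)| ≤ Δ) (hR : 1 ≤ k * R₀) (hh : ∀ j, |h j| ≤ 1) (hu : ∀ j, |u j| ≤ 1)
    (hu' : ∀ j, |u' j| ≤ 1) :
    |meanZ (FB (n := n) bw R₀ k S β h u lam) - meanZ (FB (n := n) bw' R₀ k S β h u' lam)| ≤
      Δ + 2 * gainCap S β := by
  have i1 := intZ_FB (n := n) (S := S) (β := β) (lam := lam) hb hR hh hu
  have i2 := intZ_FB (n := n) (S := S) (β := β) (lam := lam) hb' hR hh hu'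
  unfold meanZ
  rw [← integral_sub i1 i2]
  refine (abs_integral_le_integral_abs).trans ((integral_mono (i1.sub i2).abs (integrable_const _)
    fun z => abs_FB_sub hb hb' hΔ hR hh hu hu' z).trans_eq ?_)
  rw [integral_const, probReal_univ, one_smul]

end Vale.Agent.P166.Gen.Up
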