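import Vale.Agent.P157.Full.Ends
import Vale.Agent.P166.Gen.Defs
import Vale.Agent.P166.Gen.Up.EnvBase

/-! The coupling as a base weight: size, continuity in the frame, and the tangent in the inverse temperature. -/

open MeasureTheory ProbabilityTheory Real Finset Filter
open Vale.Agent.P150 (gauss dot)
open Vale.Agent.P168.MP (lin ET Batch logZ0 ok_lin gainCap)
open Vale.Agent.P157.Full (MarkX spinX pwX cfg spinX_cfg)
open Vale.Agent.P157.Par (Site Ix spins)
open Vale.Agent.P157.Lim (wt)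

noncomputable section

namespace Vale.Agent.P166.Gen.Up

variable {N k m : ℕ}

/-- orthogonality of an array -/
abbrev Orth (U : Mat N) : Prop := Matrix.of U ∈ Matrix.orthogonalGroup (Fin N) ℝ

lemma sum_cd_sq {U : Mat N} (hU : Orth U) (σ : Fin N → Bool) : ∑ i, cd U σ i ^ 2 = N := by
  have hcol : ∀ x y, ∑ i, U i x * U i y = if x = y then (1:ℝ) else 0 := fun x y => by
    have := congrFun (congrFun ((Matrix.mem_orthogonalGroup_iff' (Fin N) ℝ).1 hU) x) y
    simpa [Matrix.mul_apply, Matrix.transpose_apply, Matrix.one_apply] using this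
  simp only [cd, sq, sum_mul_sum]
  rw [sum_comm]
  have e : ∀ x, (∑ i, ∑ y, U i x * spin (σ x) * (U i y * spin (σ y))) = 1 := fun x => by
    rw [sum_comm, sum_congr rfl fun y _ => show ∑ i, U i x * spin (σ x) * (U i y * spin (σ y)) =
        spin (σ x) * spin (σ y) * if x = y then (1:ℝ) else 0 by
      rw [← hcol x y, mul_sum]; exact sum_congr rfl fun i _ => by ring]
    simp only [mul_ite, mul_one, mul_zero, Finset.sum_ite_eq, mem_univ, if_true]
    cases σ x <;> norm_num [spin]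
  simp only [e]
  simp

variable {lab : Fin N → Fin m} {θ θ' : Fin m → ℝ} {U : Mat N}

lemma log_wJ (θ : Fin m → ℝ) (lab : Fin N → Fin m) (U : Mat N) (σ : Fin N → Bool) :
    log (wJ θ lab U σ) = (∑ i, θ (lab i) * cd U σ i ^ 2) / 2 := log_exp _

lemma wJ_pos (θ : Fin m → ℝ) (lab : Fin N → Fin m) (U : Mat N) (σ : Fin N → Bool) : 0 < wJ θ lab U σ := exp_pos _

lemma log_wJ_near (hU : Orth U) {D : ℝ} (h : ∀ j, |θ j - θ' j| ≤ D) (σ : Fin N → Bool) :
    |log (wJ θ lab U σ) - log (wJ θ' lab U σ)| ≤ D * N / 2 := by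
  rw [log_wJ, log_wJ, ← sub_div, abs_div, abs_two, ← sum_sub_distrib]
  refine div_le_div_of_nonneg_right ((abs_sum_le_sum_abs _ _).trans ?_) two_pos.le
  rw [← sum_cd_sq hU σ, mul_sum]
  refine sum_le_sum fun i _ => ?_
  rw [← sub_mul, abs_mul, abs_of_nonneg (sq_nonneg (cd U σ i))]
  exact mul_le_mul_of_nonneg_right (h _) (sq_nonneg _)

lemma abs_log_wJ (hU : Orth U) {L : ℝ} (h : ∀ j, |θ j| ≤ L) (σ : Fin N → Bool) :
    |log (wJ θ lab U σ)| ≤ L * N / 2 := by
  have e : log (wJ (fun _ : Fin m => (0:ℝ)) lab U σ) = 0 := by simp [log_wJ]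
  simpa [e] using log_wJ_near (lab := lab) (θ' := fun _ : Fin m => (0:ℝ)) hU (fun j => by simpa using h j) σ

lemma sum_theta_pov [NeZero N] (θ : Fin m → ℝ) (lab : Fin N → Fin m) (U : Mat N) (σ : Fin N → Bool) :
    ∑ j, θ j * pov lab U j σ σ = (∑ i, θ (lab i) * cd U σ i ^ 2) / N := by
  simp only [pov, mul_div_assoc', ← sum_div, mul_sum]
  congr 1
  rw [← sum_fiberwise univ lab fun i => θ (lab i) * cd U σ i ^ 2]
  refine sum_congr rfl fun j _ => sum_congr rfl fun i hi => ?_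
  rw [(mem_filter.1 hi).2]; ring

lemma pov_nonneg (j : Fin m) (σ : Fin N → Bool) : 0 ≤ pov lab U j σ σ :=
  div_nonneg (sum_nonneg fun i _ => mul_self_nonneg _) (Nat.cast_nonneg _)

lemma sum_pov [NeZero N] (hU : Orth U) (σ : Fin N → Bool) : ∑ j, pov lab U j σ σ = 1 := by
  have h := sum_theta_pov (fun _ : Fin m => (1:ℝ)) lab U σ
  simp only [one_mul] at h
  rw [h, sum_cd_sq hU σ, div_self (Nat.cast_ne_zero.2 (NeZero.ne N))]

lemma abs_pov_le [NeZero N] (hU : Orth U) (j : Fin m) (σ τ : Fin N → Bool) : |pov lab U j σ τ| ≤ 1 := by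
  have h1 : ∀ ρ : Fin N → Bool, pov lab U j ρ ρ ≤ 1 := fun ρ =>
    (single_le_sum (fun i _ => pov_nonneg i ρ) (mem_univ j)).trans_eq (sum_pov hU ρ)
  have hN : (0:ℝ) < N := by exact_mod_cast Nat.pos_of_ne_zero (NeZero.ne N)
  have ha := h1 σ
  have hb := h1 τ
  simp only [pov] at ha hb ⊢
  rw [div_le_one hN] at ha hb
  rw [abs_div, abs_of_pos hN, div_le_one hN]
  refine (abs_sum_le_sum_abs _ _).trans ((sum_le_sum (g := fun i => (cd U σ i * cd U σ i + cd U τ i * cd U τ i) / 2)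
    fun i _ => ?_).trans ?_)
  · rw [abs_mul, ← abs_mul_self (cd U σ i), ← abs_mul_self (cd U τ i), abs_mul, abs_mul]
    nlinarith [sq_nonneg (|cd U σ i| - |cd U τ i|)]
  · rw [← sum_div, sum_add_distrib]
    linarith

lemma continuous_cd (σ : Fin N → Bool) (i : Fin N) : Continuous fun U : Mat N => cd U σ i := by
  unfold cd; fun_prop

lemma continuous_wJ (θ : Fin m → ℝ) (lab : Fin N → Fin m) (σ : Fin N → Bool) :
    Continuous fun U : Mat N => wJ θ lab U σ := by
  unfold wJ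
  exact continuous_exp.comp ((continuous_finsetSum _ fun i _ =>
    continuous_const.mul ((continuous_cd σ i).pow 2)).div_const _)

lemma continuous_pov (lab : Fin N → Fin m) (j : Fin m) (σ τ : Fin N → Bool) :
    Continuous fun U : Mat N => pov lab U j σ τ := by
  unfold pov
  exact (continuous_finsetSum _ fun i _ => (continuous_cd σ i).mul (continuous_cd τ i)).div_const _

/-- the pressure in the form of the base weight -/
lemma pressure_eq (θ : Fin m → ℝ) (lab : Fin N → Fin m) (U : Mat N) :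
    pressure 1 (fun i => θ (lab i)) U = log (∑ σ, wt N σ * wJ θ lab U σ) / N := by
  have e : ∀ σ : Fin N → Bool, (∑ i, ∑ j, spin (σ i) * (∑ l, U l i * θ (lab l) * U l j) * spin (σ j)) =
      ∑ l, θ (lab l) * cd U σ l ^ 2 := fun σ => by
    simp only [cd, sq, sum_mul_sum, mul_sum, sum_mul]
    rw [sum_congr rfl fun i _ => sum_comm, sum_comm]
    exact sum_congr rfl fun l _ => sum_congr rfl fun i _ => sum_congr rfl fun j _ => by ring
  unfold pressure wJ wt
  simp only [e]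
  rw [one_div_mul_eq_div, mul_sum]
  congr 2
  refine sum_congr rfl fun σ _ => ?_
  rw [one_div, inv_pow]
  congr 2
  ring

lemma log_Z_bounds [NeZero N] (hU : Orth U) {L : ℝ} (h : ∀ j, |θ j| ≤ L) :
    |log (∑ σ, wt N σ * wJ θ lab U σ)| ≤ L * N / 2 := by
  have hw : ∑ σ : Fin N → Bool, wt N σ = 1 := by simp [wt]
  have hn : ∀ σ, (0:ℝ) ≤ wt N σ := fun σ => by unfold wt; positivity
  have hl := fun σ => abs_le.1 (abs_log_wJ (lab := lab) hU h σ)
  have hp := fun σ => wJ_pos θ lab U σ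
  have h1 : exp (-(L * N / 2)) ≤ ∑ σ, wt N σ * wJ θ lab U σ := by
    refine le_trans (by rw [← sum_mul, hw, one_mul]) (sum_le_sum fun σ _ =>
      mul_le_mul_of_nonneg_left ((le_log_iff_exp_le (hp σ)).1 (hl σ).1) (hn σ))
  have h2 : ∑ σ, wt N σ * wJ θ lab U σ ≤ exp (L * N / 2) := by
    refine (sum_le_sum fun σ _ => mul_le_mul_of_nonneg_left ((log_le_iff_le_exp (hp σ)).1 (hl σ).2) (hn σ)).trans ?_
    rw [← sum_mul, hw, one_mul]
  have h0 := (exp_pos _).trans_le h1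
  exact abs_le.2 ⟨(le_log_iff_exp_le h0).2 h1, (log_le_iff_le_exp h0).2 h2⟩

/-! ### as a base of the field system -/

variable {n S R₀ : ℕ} [NeZero N] {ι : Type} [Fintype ι] [DecidableEq ι] {β : ι → Batch} {h u : ι → ℝ}
  {lam : Fin R₀ → ℝ}

/-- the weight without coupling -/
def w0B (R₀ k S : ℕ) (β : ι → Batch) (h u : ι → ℝ) (lam : Fin R₀ → ℝ) (z : Fin N × Ix (k * R₀) n → ℝ) :
    List (MarkX (Site N (n + 1)) N S β) → ℝ :=
  wB (fun _ => 1) R₀ k S β h u lam z

lemma wB_eq_wU (hR : 1 ≤ k * R₀) (θ : Fin m → ℝ) (lab : Fin N → Fin m) (U : Mat N)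
    (z : Fin N × Ix (k * R₀) n → ℝ) :
    wB (wJ θ lab U) R₀ k S β h u lam z = wU θ lab U (w0B R₀ k S β h u lam z) (spinX cfg (k * R₀)) := by
  funext p
  simp only [wB, w0B, pwX, fieldB, wU, one_mul]
  rw [spinX_cfg (Nat.one_le_iff_ne_zero.2 (by omega) : 1 ≤ k * R₀)]
  ring

lemma w0B_pos (z : Fin N × Ix (k * R₀) n → ℝ) (p : List (MarkX (Site N (n + 1)) N S β)) :
    0 < w0B R₀ k S β h u lam z p := wB_pos (fun _ => one_pos) z p

/-- the energy per site -/
def slopeB (θ₀ θ : Fin m → ℝ) (lab : Fin N → Fin m) (U : Mat N) (R₀ k S : ℕ) (β : ι → Batch) (h u : ι → ℝ)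
    (lam : Fin R₀ → ℝ) (z : Fin N × Ix (k * R₀) n → ℝ) : ℝ :=
  ET (k * R₀) (lin (k * R₀)) (wB (wJ θ lab U) R₀ k S β h u lam z) [(0, 0)] fun ps =>
    (∑ j, θ₀ j * pov lab U j (spinX cfg (k * R₀) (ps.getD 0 [])) (spinX cfg (k * R₀) (ps.getD 0 []))) / 2

/-- the free energy lies above its tangent in the direction `θ₀` -/
lemma FB_tangent (hR : 1 ≤ k * R₀) (θ₀ θ θ' : Fin m → ℝ) (lab : Fin N → Fin m) (U : Mat N) {t : ℝ}
    (hθ : ∀ j, θ' j = θ j + t * θ₀ j) (z : Fin N × Ix (k * R₀) n → ℝ) :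
    FB (wJ θ lab U) R₀ k S β h u lam z + t * (N * slopeB θ₀ θ lab U R₀ k S β h u lam z) ≤
      FB (wJ θ' lab U) R₀ k S β h u lam z := by
  set A := fun p : List (MarkX (Site N (n + 1)) N S β) =>
    t * (N * ((∑ j, θ₀ j * pov lab U j (spinX cfg (k * R₀) p) (spinX cfg (k * R₀) p)) / 2))
  have h1 := P157.Full.Fld.logZ0_exp_tangent
    (ok_lin hR (wB_pos (S := S) (β := β) (h := h) (u := u) (lam := lam) (wJ_pos θ lab U) z)) A
  rw [Vale.Agent.P168.MP.ET_const_mul, Vale.Agent.P168.MP.ET_const_mul] at h1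
  have e : wB (wJ θ' lab U) R₀ k S β h u lam z = fun p => wB (wJ θ lab U) R₀ k S β h u lam z p * exp (A p) := by
    funext p
    have hN : (N:ℝ) ≠ 0 := Nat.cast_ne_zero.2 (NeZero.ne N)
    simp only [A, sum_theta_pov, spinX_cfg hR]
    rw [← mul_div_assoc, mul_div_cancel₀ _ hN]
    simp only [wB, pwX, fieldB, wJ, hθ, add_mul, sum_add_distrib, add_div, exp_add, mul_assoc, ← mul_sum,
      ← mul_div_assoc]
    ring
  rw [← e] at h1
  exact h1

lemma abs_slopeB_le (θ₀ θ : Fin m → ℝ) (lab : Fin N → Fin m) (hU : Orth U)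
    (z : Fin N × Ix (k * R₀) n → ℝ) :
    |slopeB θ₀ θ lab U R₀ k S β h u lam z| ≤ (∑ j, |θ₀ j|) / 2 := by
  refine Vale.Agent.P168.MP.ET_bound (wB_pos (wJ_pos θ lab U) z) fun ps => ?_
  rw [abs_div, abs_two]
  refine div_le_div_of_nonneg_right ((abs_sum_le_sum_abs _ _).trans (sum_le_sum fun j _ => ?_)) two_pos.le
  rw [abs_mul]
  exact mul_le_of_le_one_right (abs_nonneg _) (abs_pov_le hU j _ _)

end Vale.Agent.P166.Gen.Up
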