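import Vale.Agent.P157.Full.EnvAlg
import Vale.Agent.P157.Full.Reps
import Vale.Agent.P166.Gen.Algebra

/-! The slope of the energy along a profile compared with the slope at a path through the block tails. -/

open MeasureTheory Real Finset Filter
open scoped Topology
open Vale.Agent.P157.Par (Prof)
open Vale.Agent.P157.Full (tailAvg rep tail_block tailAvg_rep sum_rep)

noncomputable section

namespace Vale.Agent.P166.Gen.Up

open Par.Multi (xiD xiD_mem continuous_xiD)

variable {R₀ k m : ℕ} {q r : ℕ → ℝ} {w θ : Fin m → ℝ}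

/-- the slope of the energy at a profile -/
def slopeI (w θ : Fin m → ℝ) (R : ℕ) (q : ℕ → ℝ) (b : ℝ) : ℝ :=
  (∫ s in (0:ℝ)..1, slopeR w θ (b * xiD R q s)) / 2

lemma xiD_rep (hk : 1 ≤ k) (q : ℕ → ℝ) (R₀ : ℕ) (s : ℝ) : xiD (k * R₀) (rep k q) s = xiD R₀ q s := by
  have h0 : (k : ℝ) ≠ 0 := by exact_mod_cast (show k ≠ 0 by omega)
  rw [xiD, xiD]
  show (∑ l ∈ range (k * R₀), (fun p => 1 - max s (q p)) (l / k)) / _ = _
  rw [sum_rep hk (fun p => 1 - max s (q p))]
  push_cast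
  rw [mul_div_mul_left _ _ h0]

lemma prof_rep (hR₀ : 1 ≤ R₀) (hk : 1 ≤ k) {V : ℝ} (hq : Prof R₀ q V) : Prof (k * R₀) (rep k q) V := by
  refine ⟨by simpa [rep] using hq.zero, fun l hl => ?_, ?_⟩
  · exact hq.le_of_le (Nat.div_le_div_right (Nat.le_succ l)) (Nat.div_le_of_le_mul (by omega))
  · rw [rep, Nat.mul_div_cancel_left _ (by omega)]; exact hq.top

/-- block tails above those of a path bring the susceptibility below -/
theorem xiD_blocks (hR₀ : 1 ≤ R₀) (hk : 1 ≤ k) (hq : Prof R₀ q 1) (hr : Prof (k * R₀) r 1) {e : ℝ} (he : 0 ≤ e)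
    (h : ∀ j < R₀, tailAvg R₀ j q - e ≤ tailAvg (k * R₀) (j * k) r) (s : ℝ) :
    xiD (k * R₀) r s ≤ xiD R₀ q s + e := by
  rw [← xiD_rep hk q R₀ s]
  refine xiD_tail (prof_rep hR₀ hk hq) he (fun J hJ => tail_block hk (fun l hl => hr.mono l (by omega)) he ?_ hJ) s
  intro j hj
  rw [tailAvg_rep hk q (R₀ - j) j (by omega)]
  exact h j hj

lemma abs_slopeR_le (ha : Atoms w θ) {y : ℝ} (hy : 0 ≤ y) : |slopeR w θ y| ≤ ∑ j, |θ j| := by
  rw [slopeR, ← ha.sum_theta_dphiA' hy]
  refine (abs_sum_le_sum_abs _ _).trans (sum_le_sum fun j _ => ?_)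
  rw [abs_mul, abs_of_nonneg (ha.dphiA_mem j y).1]
  exact mul_le_of_le_one_right (abs_nonneg _) (ha.dphiA_mem j y).2

/-- a monotone continuous slope moves little under small increases of the argument -/
lemma slope_modulus (ha : Atoms w θ) {ω : ℝ} (hω : 0 < ω) : ∃ K : ℝ, 0 ≤ K ∧ ∀ y ∈ Set.Icc (0:ℝ) 1,
    ∀ y' ∈ Set.Icc (0:ℝ) 1, ∀ x : ℝ, 0 ≤ x → y ≤ y' + x → slopeR w θ y ≤ slopeR w θ y' + ω + K * x := by
  have hc : ContinuousOn (slopeR w θ) (Set.Icc 0 1) :=
    (continuousOn_slopeR ha).mono fun y hy => hy.1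
  obtain ⟨d, hd, hu⟩ := Metric.uniformContinuousOn_iff.1
    (isCompact_Icc.uniformContinuousOn_of_continuous hc) ω hω
  set G := ∑ j, |θ j|
  have hG : 0 ≤ G := sum_nonneg fun j _ => abs_nonneg _
  refine ⟨2 * G / d, by positivity, fun y hy y' hy' x hx hyx => ?_⟩
  have hKx : 0 ≤ 2 * G / d * x := by positivity
  rcases le_or_gt y y' with h | h
  · have : slopeR w θ y ≤ slopeR w θ y' := ha.yR_slope_mono hy.1 hy'.1 h
    linarith
  rcases lt_or_ge (y - y') d with h1 | h1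
  · have := hu y hy y' hy' (by rw [Real.dist_eq, abs_of_pos (sub_pos.2 h)]; exact h1)
    rw [Real.dist_eq] at this
    linarith [(abs_lt.1 this).2]
  · have h2 := abs_le.1 (abs_slopeR_le ha hy.1)
    have h3 := abs_le.1 (abs_slopeR_le ha hy'.1)
    have h4 : 2 * G ≤ 2 * G / d * x := by
      rw [div_mul_eq_mul_div, le_div_iff₀ hd]
      exact mul_le_mul_of_nonneg_left (by linarith) (by positivity)
    linarith

lemma ii_slopeR (ha : Atoms w θ) (hq : Prof k q 1) {b : ℝ} (hb : 0 ≤ b) :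
    IntervalIntegrable (fun s => slopeR w θ (b * xiD k q s)) volume 0 1 :=
  ii_scaled hq (continuousOn_slopeR ha) hb

/-- **slopes through block tails** -/
theorem slopeI_blocks (ha : Atoms w θ) {ω K : ℝ} (hK : ∀ y ∈ Set.Icc (0:ℝ) 1,
      ∀ y' ∈ Set.Icc (0:ℝ) 1, ∀ x : ℝ, 0 ≤ x → y ≤ y' + x → slopeR w θ y ≤ slopeR w θ y' + ω + K * x)
    (hR₀ : 1 ≤ R₀) (hk : 1 ≤ k) (hq : Prof R₀ q 1) (hr : Prof (k * R₀) r 1) {b : ℝ} (hb : 0 ≤ b) (hb1 : b ≤ 1)
    {e : ℝ} (he : 0 ≤ e) (h : ∀ j < R₀, tailAvg R₀ j q - e ≤ tailAvg (k * R₀) (j * k) r) :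
    slopeI w θ (k * R₀) r b ≤ slopeI w θ R₀ q b + (ω + K * e) / 2 := by
  have i1 := ii_slopeR ha hr hb
  have i2 := ii_slopeR ha hq hb
  have := intervalIntegral.integral_mono_on zero_le_one i1 (i2.add intervalIntegrable_const (g := fun _ => ω + K * e))
    fun s hs => by
      obtain ⟨a0, a1⟩ := xiD_mem hr hs.1 hs.2
      obtain ⟨c0, c1⟩ := xiD_mem hq hs.1 hs.2
      have hd : b * xiD (k * R₀) r s ≤ b * xiD R₀ q s + e :=
        le_trans (mul_le_mul_of_nonneg_left (xiD_blocks hR₀ hk hq hr he h s) hb)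
          (by rw [mul_add]; linarith [mul_le_of_le_one_left he hb1])
      have := hK _ ⟨mul_nonneg hb a0, mul_le_one₀ hb1 a0 a1⟩ _ ⟨mul_nonneg hb c0, mul_le_one₀ hb1 c0 c1⟩ e he hd
      show slopeR w θ (b * xiD (k * R₀) r s) ≤ slopeR w θ (b * xiD R₀ q s) + (ω + K * e)
      linarith
  rw [intervalIntegral.integral_add i2 intervalIntegrable_const, intervalIntegral.integral_const] at this
  simp only [sub_zero, one_smul] at this
  rw [slopeI, slopeI]
  linarith

lemma abs_slopeI_le (ha : Atoms w θ) (hq : Prof k q 1) {b : ℝ} (hb : 0 ≤ b) :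
    |slopeI w θ k q b| ≤ (∑ j, |θ j|) / 2 := by
  rw [slopeI, abs_div, abs_two]
  refine div_le_div_of_nonneg_right ?_ two_pos.le
  rw [← norm_eq_abs]
  refine le_trans (intervalIntegral.norm_integral_le_of_norm_le_const (C := ∑ j, |θ j|) fun s hs => ?_) (le_of_eq (by norm_num))
  rw [Set.uIoc_of_le zero_le_one] at hs
  exact abs_slopeR_le ha (mul_nonneg hb (xiD_mem hq hs.1.le hs.2).1)

lemma abs_energy_le (ha : Atoms w θ) (hq : Prof k q 1) {b : ℝ} (hb : 0 ≤ b) :
    |energy w θ k q b| ≤ b * (∑ j, |θ j|) / 2 := by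
  rw [energy, abs_div, abs_two, abs_mul, abs_of_nonneg hb]
  refine div_le_div_of_nonneg_right (mul_le_mul_of_nonneg_left ?_ hb) two_pos.le
  rw [← norm_eq_abs]
  refine le_trans (intervalIntegral.norm_integral_le_of_norm_le_const (C := ∑ j, |θ j|) fun s hs => ?_) (le_of_eq (by norm_num))
  rw [Set.uIoc_of_le zero_le_one] at hs
  exact ha.abs_Rat_le (mul_nonneg hb (xiD_mem hq hs.1.le hs.2).1)
    fun j => single_le_sum (f := fun j => |θ j|) (fun _ _ => abs_nonneg _) (mem_univ j)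

/-- right end sums of the slope stay below the energy -/
theorem slope_sum (ha : Atoms w θ) (hq : Prof k q 1) (n : ℕ) :
    ∑ i ∈ range (n + 1), 1 / ((n:ℝ) + 1) * slopeI w θ k q (((i:ℝ) + 1) / (n + 1)) ≤
      energy w θ k q 1 + (∑ j, |θ j|) / ((n:ℝ) + 1) := by
  set G := ∑ j, |θ j|
  set d := 1 / ((n:ℝ) + 1) with hd
  have hd0 : 0 < d := by positivity
  set b : ℕ → ℝ := fun i => (i:ℝ) / (n + 1)
  have hb0 : ∀ i, 0 ≤ b i := fun i => by positivity
  have hstep : ∀ i, b (i + 1) - b i = d := fun i => by simp only [b, hd]; push_cast; ring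
  have h1 : ∀ i : ℕ, d * slopeI w θ k q (b (i + 1)) ≤ energy w θ k q (b (i + 2)) - energy w θ k q (b (i + 1)) :=
    fun i => by
      have := (energy_between ha hq (hb0 (i + 1))
        (show b (i + 1) ≤ b (i + 2) by linarith [hstep (i + 1)])).1
      rwa [hstep (i + 1)] at this
  have e : ∀ i : ℕ, ((i:ℝ) + 1) / (n + 1) = b (i + 1) := fun i => by simp only [b]; push_cast; ring
  simp only [e]
  refine (sum_le_sum fun i _ => h1 i).trans ?_
  rw [sum_range_sub (fun i => energy w θ k q (b (i + 1)))]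
  have htop := (energy_between ha hq (show (0:ℝ) ≤ 1 by norm_num)
    (show (1:ℝ) ≤ b (n + 1 + 1) by simp only [b]; rw [le_div_iff₀ (by positivity)]; push_cast; linarith)).2
  have hg : b (n + 1 + 1) - 1 = d := by simp only [b, hd]; field_simp; push_cast; ring
  rw [hg] at htop
  have hs := abs_le.1 (abs_slopeI_le ha hq (hb0 (n + 1 + 1)))
  have he := abs_le.1 (abs_energy_le ha hq (hb0 (0 + 1)))
  have e1 : b (0 + 1) = d := by simp only [b, hd]; push_cast; ring
  rw [e1] at he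
  have e2 : G / ((n:ℝ) + 1) = d * G := by rw [hd]; ring
  rw [e2]
  have := mul_le_mul_of_nonneg_left hs.2 hd0.le
  have e3 : (∫ s in (0:ℝ)..1, slopeR w θ (b (n + 1 + 1) * xiD k q s)) / 2 = slopeI w θ k q (b (n + 1 + 1)) := rfl
  rw [e3] at htop
  rw [show b (0 + 1) = d from e1]
  linarith [he.1]

/-- the levels of a function of the overlap matrix are continuous in the profile -/
theorem continuous_levF {X : Type} [TopologicalSpace X] {f' : ℝ → ℝ} (hf : ContinuousOn f' (Set.Ici 0))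
    {R : ℕ} {r : X → ℕ → ℝ} (hr : ∀ x, Prof R (r x) 1) (hc : ∀ l, Continuous fun x => r x l) {l : ℕ} (hl : l ≤ R) :
    Continuous fun x => levF f' R (r x) l := by
  have e : (fun x => levF f' R (r x) l) = fun x => ∫ s in (0:ℝ)..r x l, ext0 f' (xiD R (r x) s) := by
    funext x
    exact (ext_int (hr x) (Set.left_mem_Icc.2 zero_le_one) ((hr x).upper hl)).symm
  rw [e]
  refine intervalIntegral.continuous_parametric_intervalIntegral_of_continuous ?_ (hc l)
  refine (continuous_ext0 hf).comp ?_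
  unfold xiD
  exact (continuous_finsetSum _ fun i _ => continuous_const.sub
    (continuous_snd.max ((hc i).comp continuous_fst))).div_const _

end Vale.Agent.P166.Gen.Up
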