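import Vale.Agent.P157.Par.QConc
import Vale.Agent.P166.Gen.Up.EnvCoupling
import Vale.Agent.P166.Gen.Up.EnvSlope

/-!
The error of the rotation identities as a function of the frame and of the field, and the energy per site
in terms of the slope of the energy at the overlap profile.
-/

open MeasureTheory ProbabilityTheory Real Finset Filter
open Vale.Agent.P150 (gauss)
open Vale.Agent.P168.MP (lin ET Batch Valid mad)
open Vale.Agent.P157.Full (MarkX spinX pwX cfg)
open Vale.Agent.P157.Par (Site Ix Prof adev ovK devOf qlev)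

noncomputable section

namespace Vale.Agent.P166.Gen.Up

variable {N n S R₀ k m : ℕ} [NeZero N] {ι : Type} [Fintype ι] [DecidableEq ι] {β : ι → Batch} {h u : ι → ℝ}
  {lam : Fin R₀ → ℝ} {lab : Fin N → Fin m} {w θ θ' : Fin m → ℝ} {U : Mat N}

/-- the mean distance of the projected overlaps from their predicted levels -/
def povErr (w θ θ' : Fin m → ℝ) (lab : Fin N → Fin m) (U : Mat N) (R₀ k S : ℕ) (β : ι → Batch) (h u : ι → ℝ)
    (lam : Fin R₀ → ℝ) (z : Fin N × Ix (k * R₀) n → ℝ) : ℝ :=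
  ∑ j, adev (k * R₀) (wB (wJ θ' lab U) R₀ k S β h u lam z)
    (fun p p' => pov lab U j (spinX cfg (k * R₀) p) (spinX cfg (k * R₀) p'))
    (levP w θ j (k * R₀) (rB (wJ θ' lab U) R₀ k S β h u lam z))

/-- the deviations that the rotation identities assume small -/
def devU (θ' : Fin m → ℝ) (lab : Fin N → Fin m) (U : Mat N) (R₀ k S : ℕ) (β : ι → Batch) (h u : ι → ℝ)
    (lam : Fin R₀ → ℝ) (z : Fin N × Ix (k * R₀) n → ℝ) : ℝ :=
  adB (wJ θ' lab U) R₀ k S β h u lam z +
    madJ (k * R₀) lab U (wB (wJ θ' lab U) R₀ k S β h u lam z) (spinX cfg (k * R₀))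

lemma continuous_wB_pair (θ' : Fin m → ℝ) (lab : Fin N → Fin m) (p : List (MarkX (Site N (n + 1)) N S β)) :
    Continuous fun x : Mat N × (Fin N × Ix (k * R₀) n → ℝ) => wB (wJ θ' lab x.1) R₀ k S β h u lam x.2 p := by
  unfold wB pwX fieldB
  exact (((continuous_wJ θ' lab _).comp continuous_fst).mul
    (continuous_exp.comp ((P157.Par.continuous_dot_left _).comp continuous_snd))).mul continuous_const

lemma continuous_rB_pair (θ' : Fin m → ℝ) (lab : Fin N → Fin m) (l : ℕ) :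
    Continuous fun x : Mat N × (Fin N × Ix (k * R₀) n → ℝ) => rB (wJ θ' lab x.1) R₀ k S β h u lam x.2 l :=
  P157.Par.continuous_ET (continuous_wB_pair θ' lab) (fun x p => wB_pos (wJ_pos θ' lab x.1) x.2 p) _ _
    fun _ => continuous_const

lemma continuous_povErr (ha : Atoms w θ) (θ' : Fin m → ℝ) (lab : Fin N → Fin m) :
    Continuous fun x : Mat N × (Fin N × Ix (k * R₀) n → ℝ) =>
      povErr w θ θ' lab x.1 R₀ k S β h u lam x.2 := by
  have hp := fun x : Mat N × (Fin N × Ix (k * R₀) n → ℝ) =>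
    (rB_prof (S := S) (β := β) (h := h) (u := u) (lam := lam) (wJ_pos θ' lab x.1) x.2).1
  have hlev : ∀ (j : Fin m) l, l ≤ k * R₀ → Continuous fun x : Mat N × (Fin N × Ix (k * R₀) n → ℝ) =>
      levP w θ j (k * R₀) (rB (wJ θ' lab x.1) R₀ k S β h u lam x.2) l := fun j l hl =>
    continuous_levF (ha.continuousOn_dphiA j) hp (fun l => continuous_rB_pair θ' lab l) hl
  have hd : ∀ (j : Fin m) l, l ≤ k * R₀ → Continuous fun x : Mat N × (Fin N × Ix (k * R₀) n → ℝ) =>
      devOf (k * R₀) (wB (wJ θ' lab x.1) R₀ k S β h u lam x.2)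
        (fun p p' => pov lab x.1 j (spinX cfg (k * R₀) p) (spinX cfg (k * R₀) p'))
        (levP w θ j (k * R₀) (rB (wJ θ' lab x.1) R₀ k S β h u lam x.2)) l := fun j l hl =>
    P157.Par.continuous_ET (continuous_wB_pair θ' lab) (fun x p => wB_pos (wJ_pos θ' lab x.1) x.2 p) _ _
      fun _ => (((continuous_pov lab j _ _).comp continuous_fst).sub (hlev j l hl)).abs
  unfold povErr adev
  exact continuous_finsetSum _ fun j _ =>
    ((continuous_finsetSum _ fun l hl => hd j l (mem_range.1 hl).le).div_const _).add (hd j _ le_rfl)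

lemma povErr_mem (ha : Atoms w θ) (hR : 1 ≤ k * R₀) (hU : Orth U) (θ' : Fin m → ℝ)
    (z : Fin N × Ix (k * R₀) n → ℝ) :
    0 ≤ povErr w θ θ' lab U R₀ k S β h u lam z ∧ povErr w θ θ' lab U R₀ k S β h u lam z ≤ 4 * m := by
  have hw := wB_pos (S := S) (β := β) (h := h) (u := u) (lam := lam) (wJ_pos θ' lab U) z
  have hp := (rB_prof (S := S) (β := β) (h := h) (u := u) (lam := lam) (wJ_pos θ' lab U) z).1
  refine ⟨sum_nonneg fun j _ => P157.Par.adev_nonneg hw _ _, ?_⟩
  refine (sum_le_card_nsmul _ _ 4 fun j _ => ?_).trans_eq (by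
    rw [nsmul_eq_mul, card_univ, Fintype.card_fin, mul_comm])
  have hd : ∀ l ≤ k * R₀, devOf (k * R₀) (wB (wJ θ' lab U) R₀ k S β h u lam z)
      (fun p p' => pov lab U j (spinX cfg (k * R₀) p) (spinX cfg (k * R₀) p'))
      (levP w θ j (k * R₀) (rB (wJ θ' lab U) R₀ k S β h u lam z)) l ≤ 2 := fun l hl =>
    (le_abs_self _).trans (Vale.Agent.P168.MP.ET_bound hw fun ps => by
      rw [abs_abs]
      refine (abs_sub _ _).trans ?_
      obtain ⟨x0, x1⟩ := (levP_prof (θ := θ) ha hp j).upper hl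
      rw [abs_of_nonneg x0]
      linarith [abs_pov_le (lab := lab) hU j (spinX cfg (k * R₀) (ps.getD 0 [])) (spinX cfg (k * R₀) (ps.getD 1 []))])
  have hR' : (0:ℝ) < (k * R₀ : ℕ) := by exact_mod_cast hR
  unfold adev
  have h1 : (∑ l ∈ range (k * R₀), devOf (k * R₀) (wB (wJ θ' lab U) R₀ k S β h u lam z)
      (fun p p' => pov lab U j (spinX cfg (k * R₀) p) (spinX cfg (k * R₀) p'))
      (levP w θ j (k * R₀) (rB (wJ θ' lab U) R₀ k S β h u lam z)) l) / ((k * R₀ : ℕ) : ℝ) ≤ 2 := by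
    rw [div_le_iff₀ hR']
    refine (sum_le_card_nsmul _ _ _ fun l hl => hd l (mem_range.1 hl).le).trans_eq ?_
    rw [card_range, nsmul_eq_mul, mul_comm]
  linarith [hd _ le_rfl]

lemma continuous_devU (θ' : Fin m → ℝ) (lab : Fin N → Fin m) :
    Continuous fun x : Mat N × (Fin N × Ix (k * R₀) n → ℝ) => devU θ' lab x.1 R₀ k S β h u lam x.2 := by
  have hd : ∀ j, Continuous fun x : Mat N × (Fin N × Ix (k * R₀) n → ℝ) =>
      devOf (k * R₀) (wB (wJ θ' lab x.1) R₀ k S β h u lam x.2) (ovK (spinX cfg (k * R₀)))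
        (rB (wJ θ' lab x.1) R₀ k S β h u lam x.2) j := fun j =>
    P157.Par.continuous_ET (continuous_wB_pair θ' lab) (fun x p => wB_pos (wJ_pos θ' lab x.1) x.2 p) _ _ fun _ =>
      (continuous_const.sub (continuous_rB_pair θ' lab j)).abs
  have hm : ∀ j, Continuous fun x : Mat N × (Fin N × Ix (k * R₀) n → ℝ) =>
      mad (k * R₀) (lin (k * R₀)) (wB (wJ θ' lab x.1) R₀ k S β h u lam x.2)
        fun p => pov lab x.1 j (spinX cfg (k * R₀) p) (spinX cfg (k * R₀) p) := fun j => by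
    refine P157.Par.continuous_ET (continuous_wB_pair θ' lab) (fun x p => wB_pos (wJ_pos θ' lab x.1) x.2 p) _ _
      fun _ => (((continuous_pov lab j _ _).comp continuous_fst).sub ?_).abs
    exact P157.Par.continuous_ET (continuous_wB_pair θ' lab) (fun x p => wB_pos (wJ_pos θ' lab x.1) x.2 p) _ _
      fun _ => (continuous_pov lab j _ _).comp continuous_fst
  unfold devU adB adev madJ
  exact (((continuous_finsetSum _ fun j _ => hd j).div_const _).add (hd _)).add
    (continuous_finsetSum _ fun j _ => hm j)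

lemma devU_mem (hR : 1 ≤ k * R₀) (hU : Orth U) (θ' : Fin m → ℝ) (z : Fin N × Ix (k * R₀) n → ℝ) :
    0 ≤ devU θ' lab U R₀ k S β h u lam z ∧ devU θ' lab U R₀ k S β h u lam z ≤ 6 + 2 * m := by
  have hw := wB_pos (S := S) (β := β) (h := h) (u := u) (lam := lam) (wJ_pos θ' lab U) z
  obtain ⟨a0, a1⟩ := adB_mem (S := S) (β := β) (h := h) (u := u) (lam := lam) (wJ_pos θ' lab U) hR z
  refine ⟨add_nonneg a0 (sum_nonneg fun j _ => Vale.Agent.P168.MP.ET_nonneg hw fun _ => abs_nonneg _),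
    add_le_add a1 ((sum_le_card_nsmul _ _ 2 fun j _ => ?_).trans_eq (by
      rw [nsmul_eq_mul, card_univ, Fintype.card_fin, mul_comm]))⟩
  refine (le_abs_self _).trans (Vale.Agent.P168.MP.ET_bound hw fun ps => ?_)
  rw [abs_abs]
  refine (abs_sub _ _).trans ?_
  have : |Vale.Agent.P168.MP.mean1 (k * R₀) (lin (k * R₀)) (wB (wJ θ' lab U) R₀ k S β h u lam z)
      fun p => pov lab U j (spinX cfg (k * R₀) p) (spinX cfg (k * R₀) p)| ≤ 1 :=
    Vale.Agent.P168.MP.ET_bound hw fun _ => abs_pov_le hU j _ _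
  linarith [abs_pov_le (lab := lab) hU j (spinX cfg (k * R₀) (ps.getD 0 [])) (spinX cfg (k * R₀) (ps.getD 0 []))]

omit [DecidableEq ι] [Fintype ι] [NeZero N] in
/-- the diagonal deviation seen at one replica -/
lemma devOf_top {Ω : Type} [Fintype Ω] [Nonempty Ω] {R : ℕ} {W : List Ω → ℝ} (hW : ∀ p, 0 < W p)
    (C : List Ω → List Ω → ℝ) (q : ℕ → ℝ) :
    |ET R (lin R) W [(0, 0)] (fun ps => C (ps.getD 0 []) (ps.getD 0 [])) - q R| ≤ devOf R W C q R := by
  have e : devOf R W C q R = ET R (lin R) W [(0, 0)] fun ps => |C (ps.getD 0 []) (ps.getD 0 []) - q R| := by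
    rw [devOf]
    show ET R (lin R) W [(0, 0)] (fun ps => Vale.Agent.P168.MP.ext (lin R) W (R - R) ((ps.getD 0 []).take R)
      fun p => |C ((ps ++ [p]).getD 0 []) ((ps ++ [p]).getD 1 []) - q R|) = _
    have hT : Valid R [(0, 0)] := ⟨rfl, rfl⟩
    refine Vale.Agent.P168.MP.ET_congr hT fun ps hs => ?_
    obtain ⟨P, rfl⟩ : ∃ P, ps = [P] := List.length_eq_one_iff.1 hs.1
    have hP : P.length = R := hs.2.1 0 (by simp)
    simp [List.take_of_length_le hP.le, Vale.Agent.P168.MP.ext]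
  rw [e]
  refine le_trans (le_of_eq ?_) (Vale.Agent.P168.MP.ET_abs_le hW _ _)
  rw [Vale.Agent.P168.MP.ET_sub, Vale.Agent.P168.MP.ET_const hW]

/-- **the energy per site is the slope at the overlap profile up to the error of the identities** -/
theorem slope_dev (ha : Atoms w θ) {b : ℝ} (hb : 0 < b) (θ' : Fin m → ℝ) (z : Fin N × Ix (k * R₀) n → ℝ) :
    |slopeB θ θ' lab U R₀ k S β h u lam z -
      slopeI w θ (k * R₀) (rB (wJ θ' lab U) R₀ k S β h u lam z) b| ≤
      (∑ j, |θ j|) * povErr w (fun i => b * θ i) θ' lab U R₀ k S β h u lam z / 2 := by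
  have hw := wB_pos (S := S) (β := β) (h := h) (u := u) (lam := lam) (wJ_pos θ' lab U) z
  obtain ⟨hp, htop⟩ := rB_prof (S := S) (β := β) (h := h) (u := u) (lam := lam) (wJ_pos θ' lab U) z
  have e1 : slopeB θ θ' lab U R₀ k S β h u lam z = (∑ j, θ j *
      ET (k * R₀) (lin (k * R₀)) (wB (wJ θ' lab U) R₀ k S β h u lam z) [(0, 0)]
        fun ps => pov lab U j (spinX cfg (k * R₀) (ps.getD 0 [])) (spinX cfg (k * R₀) (ps.getD 0 []))) / 2 := by
    simp only [slopeB, div_eq_inv_mul, Vale.Agent.P168.MP.ET_const_mul, Vale.Agent.P168.MP.ET_sum]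
  have e2 : slopeI w θ (k * R₀) (rB (wJ θ' lab U) R₀ k S β h u lam z) b =
      (∑ j, θ j * levP w (fun i => b * θ i) j (k * R₀) (rB (wJ θ' lab U) R₀ k S β h u lam z) (k * R₀)) / 2 :=
    (slope_eq ha hp htop hb).1
  rw [e1, e2, ← sub_div, abs_div, abs_two, ← sum_sub_distrib]
  refine div_le_div_of_nonneg_right ((abs_sum_le_sum_abs _ _).trans ?_) two_pos.le
  rw [sum_mul]
  refine sum_le_sum fun j _ => ?_
  rw [← mul_sub, abs_mul]
  refine mul_le_mul_of_nonneg_left ((devOf_top hw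
    (fun p p' => pov lab U j (spinX cfg (k * R₀) p) (spinX cfg (k * R₀) p'))
    (levP w (fun i => b * θ i) j (k * R₀) (rB (wJ θ' lab U) R₀ k S β h u lam z))).trans ?_) (abs_nonneg _)
  refine le_trans ?_ (single_le_sum (fun i _ => P157.Par.adev_nonneg hw _ _) (mem_univ j))
  exact le_add_of_nonneg_left (div_nonneg (sum_nonneg fun l _ => P157.Par.devOf_nonneg hw _ _ l) (Nat.cast_nonneg _))

end Vale.Agent.P166.Gen.Up
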