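import Vale.Agent.P157.Full.EnvAlg
import Vale.Agent.P157.Full.Conc
import Vale.Agent.P166.Gen.Up.EnvBase

/-!
What holds at a maximiser of the objective over a finite grid of amplitudes: the first order condition
and the concentration of the field energy from three points of the grid, hence the block tails of the mean
profile and their variance.
-/

open MeasureTheory ProbabilityTheory Real Finset Filter
open Vale.Agent.P150 (gauss dot l1)
open Vale.Agent.P168.MP (lin Batch gainCap avg avg_le_avg avg_const)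
open Vale.Agent.P157.Full (affX aCoef affX_update aff_one convex_sandwich gauss_dev tailAvg tail_mem lamSum
  spinX cfg)
open Vale.Agent.P157.Par (Site Ix Prof adev ovK)

namespace Vale.Agent.P166.Gen.Up

variable {N n S R₀ k : ℕ} [NeZero N] {ι : Type} [Fintype ι] [DecidableEq ι] {β : ι → Batch} {h : ι → ℝ}
  {A : Type} [Fintype A] [Nonempty A] {Bw : A → (Fin N → Bool) → ℝ} {Us : A → ι → ℝ} {q₀ : ℕ → ℝ} {η : ℝ}
  {lam : Fin R₀ → ℝ}

/-- the objective -/
noncomputable def GB (Bw : A → (Fin N → Bool) → ℝ) (n R₀ k S : ℕ) (β : ι → Batch) (h : ι → ℝ) (Us : A → ι → ℝ)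
    (q : ℕ → ℝ) (η : ℝ) (lam : Fin R₀ → ℝ) : ℝ :=
  EZ (fun a => FB (n := n) (Bw a) R₀ k S β h (Us a) lam) / N + affX q η lam

/-- standing assumptions on the bases and the strengths -/
structure Base (Bw : A → (Fin N → Bool) → ℝ) (R₀ k : ℕ) (h : ι → ℝ) (Us : A → ι → ℝ) (Δ : ℝ) : Prop where
  pos : ∀ a σ, 0 < Bw a σ
  near : ∀ a a' σ, |log (Bw a σ) - log (Bw a' σ)| ≤ Δ
  one_R : 1 ≤ R₀
  one_k : 1 ≤ k
  hh : ∀ j, |h j| ≤ 1
  hu : ∀ a j, |Us a j| ≤ 1

variable {Δ : ℝ}

omit [Fintype ι] [DecidableEq ι] [Fintype A] [Nonempty A] [NeZero N] in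
lemma Base.kR (hB : Base Bw R₀ k h Us Δ) : 1 ≤ k * R₀ :=
  Nat.one_le_iff_ne_zero.2 (Nat.mul_ne_zero (by have := hB.one_k; omega) (by have := hB.one_R; omega))

/-- deviation from the grid mean at one amplitude vector -/
lemma EZ_dev_le (hF : FieldB) (hB : Base Bw R₀ k h Us Δ) (lam : Fin R₀ → ℝ) {hi : ℝ}
    (hl : ∀ i, 0 ≤ lam i ∧ lam i ≤ hi) :
    EZ (fun a z => |FB (n := n) (Bw a) R₀ k S β h (Us a) lam z / N -
      EZ (fun a => FB (n := n) (Bw a) R₀ k S β h (Us a) lam) / N|) ≤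
      (3 * √(N * (R₀ * hi ^ 2)) + Δ + 2 * gainCap S β) / N := by
  set F := fun a => FB (n := n) (Bw a) R₀ k S β h (Us a) lam
  have hi' : ∀ a, IntZ (F a) := fun a => intZ_FB (hB.pos a) hB.kR hB.hh (hB.hu a)
  have hs : ∑ j, lam j ^ 2 ≤ R₀ * hi ^ 2 := by
    refine (sum_le_card_nsmul _ _ (hi ^ 2) fun i _ => pow_le_pow_left₀ (hl i).1 (hl i).2 2).trans_eq ?_
    rw [nsmul_eq_mul, card_univ, Fintype.card_fin]
  have hdev : ∀ a, meanZ (fun z => |F a z - meanZ (F a)|) ≤ 3 * √(N * (R₀ * hi ^ 2)) := fun a =>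
    (gauss_dev (sqrt_nonneg _) fun z z' => ((hF hB.one_R hB.one_k (Bw a) (hB.pos a) lam).1 z z').trans
      (mul_le_mul_of_nonneg_right (sqrt_le_sqrt (mul_le_mul_of_nonneg_left hs (Nat.cast_nonneg _)))
        (sqrt_nonneg _))).2
  have hm : ∀ a, |meanZ (F a) - EZ F| ≤ Δ + 2 * gainCap S β := fun a => by
    have e : meanZ (F a) - EZ F = avg fun a' => meanZ (F a) - meanZ (F a') := by
      simp only [EZ, avg, sum_sub_distrib, sub_div, sum_const, card_univ, nsmul_eq_mul]
      rw [mul_div_cancel_left₀ _ (Nat.cast_ne_zero.2 Fintype.card_ne_zero)]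
    have hb := fun a' => abs_meanZ_FB_sub (n := n) (S := S) (β := β) (lam := lam) (hB.pos a) (hB.pos a')
      (hB.near a a') hB.kR hB.hh (hB.hu a) (hB.hu a')
    rw [e, abs_le]
    exact ⟨(avg_const _).symm.trans_le (avg_le_avg fun a' => (abs_le.1 (hb a')).1),
      (avg_le_avg fun a' => (abs_le.1 (hb a')).2).trans_eq (avg_const _)⟩
  have e : (fun a z => |F a z / N - EZ F / N|) = fun a z => |F a z - EZ F| / N := by
    funext a z; rw [← sub_div, abs_div, Nat.abs_cast]
  rw [e, EZ_div_const]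
  refine div_le_div_of_nonneg_right ((avg_le_avg fun a => ?_).trans_eq (avg_const _)) (Nat.cast_nonneg _)
  refine (integral_mono ((hi' a).sub (integrable_const _)).abs
    ((IntZ.absF (IntZ.subF (hi' a) (intZ_const (meanZ (F a))))).addF (intZ_const (Δ + 2 * gainCap S β))) fun z => ?_).trans ?_
  · exact (abs_sub_le (F a z) (meanZ (F a)) (EZ F)).trans (add_le_add le_rfl (hm a))
  · show ∫ z, |F a z - meanZ (F a)| + (Δ + 2 * gainCap S β) ∂_ ≤ _
    rw [integral_add (IntZ.absF (IntZ.subF (hi' a) (intZ_const (meanZ (F a))))) (integrable_const _), integral_const, probReal_univ,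
      one_smul, add_assoc]
    exact add_le_add (hdev a) le_rfl

/-- the error of the three point comparison -/
noncomputable def thMax (N R₀ : ℕ) (η lo hi δ Δ gc : ℝ) : ℝ :=
  (1 / 2 + 2 * η / lo ^ 2) * δ + 3 * ((3 * √(N * (R₀ * hi ^ 2)) + Δ + 2 * gc) / N) / δ

/-- first order condition and concentration of the field energy at a maximiser over the grid -/
theorem energy_conc (hF : FieldB) (hB : Base Bw R₀ k h Us Δ) (hq : Prof R₀ q₀ 1) (hη : 0 ≤ η) {j : Fin R₀}
    {lo hi δ : ℝ} (hlo : 0 < lo) (hδ : 0 < δ) (hbox : ∀ i, lo ≤ lam i ∧ lam i + δ ≤ hi) (hδ2 : δ ≤ lam j / 2)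
    (hmax : ∀ d, (d = δ ∨ d = -δ) → GB Bw n R₀ k S β h Us q₀ η (Function.update lam j (lam j + d)) ≤
      GB Bw n R₀ k S β h Us q₀ η lam) :
    |EZ (fun a z => HB (n := n) (Bw a) R₀ k S β h (Us a) lam z j) / N -
        -(2 * aCoef R₀ q₀ j * lam j + η / lam j)| ≤ thMax N R₀ η lo hi δ Δ (gainCap S β) ∧
    EZ (fun a z => |HB (n := n) (Bw a) R₀ k S β h (Us a) lam z j / N -
      EZ (fun a z => HB (n := n) (Bw a) R₀ k S β h (Us a) lam z j) / N|) ≤
      2 * thMax N R₀ η lo hi δ Δ (gainCap S β) := by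
  have ha : |aCoef R₀ q₀ j| ≤ 1 / 2 := by
    obtain ⟨x0, x1⟩ := tail_mem (J := (j:ℕ)) hq
    rw [aCoef, abs_le]; constructor <;> linarith
  have hx : 0 < lam j := hlo.trans_le (hbox j).1
  set C := 1 / 2 + 2 * η / lo ^ 2
  set G' := -(2 * aCoef R₀ q₀ j * lam j + η / lam j)
  set F := fun (t : ℝ) (a : A) => FB (n := n) (Bw a) R₀ k S β h (Us a) (Function.update lam j t)
  set φ := fun (t : ℝ) (a : A) z => |F t a z / N - EZ (F t) / N|
  have hi' : ∀ t a, IntZ (φ t a) := fun t a =>
    (((intZ_FB (hB.pos a) hB.kR hB.hh (hB.hu a)).div_const _).sub (integrable_const _)).abs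
  have e0 : Function.update lam j (lam j) = lam := Function.update_eq_self _ _
  have key : ∀ d, (d = δ ∨ d = -δ) → EZ (F (lam j + d)) / N ≤ EZ (F (lam j)) / N + G' * d + C * δ ^ 2 := fun d hd => by
    have hd2 : |d| ≤ lam j / 2 := by rcases hd with rfl | rfl <;> simpa [abs_of_pos hδ] using hδ2
    have hdd : d ^ 2 = δ ^ 2 := by rcases hd with rfl | rfl <;> ring
    have h := hmax d hd
    rw [GB, GB, affX_update] at h
    have h2 := aff_one (aCoef R₀ q₀ j) η hη hx hd2
    have h3 : (|aCoef R₀ q₀ j| + 2 * η / lam j ^ 2) * d ^ 2 ≤ C * δ ^ 2 := by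
      rw [hdd]
      exact mul_le_mul_of_nonneg_right (add_le_add ha (div_le_div_of_nonneg_left (by positivity) (by positivity)
        (pow_le_pow_left₀ hlo.le (hbox j).1 2))) (sq_nonneg _)
    simp only [F, e0, G']
    linarith
  have hcv := fun a z => ((hF (N := N) (n := n) (S := S) (β := β) (h := h) (u := Us a) hB.one_R hB.one_k (Bw a)
    (hB.pos a) lam).2 j z)
  have hpt : ∀ a z, |HB (n := n) (Bw a) R₀ k S β h (Us a) lam z j / N - G'| ≤
      C * δ + (φ (lam j + δ) a z + φ (lam j - δ) a z + φ (lam j) a z) / δ := by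
    intro a z
    refine convex_sandwich (φ := fun t => F t a z / N) (G := fun t => EZ (F t) / N) hδ ?_
      ((hcv a z).2.div_const _) (key δ (Or.inl rfl)) ?_
    · simpa [div_eq_inv_mul] using (hcv a z).1.smul (show (0:ℝ) ≤ (N:ℝ)⁻¹ by positivity)
    · have := key (-δ) (Or.inr rfl)
      rw [← sub_eq_add_neg] at this
      linarith
  have hEF : ∀ t, 0 ≤ t → t ≤ hi → EZ (φ t) ≤ (3 * √(N * (R₀ * hi ^ 2)) + Δ + 2 * gainCap S β) / N := fun t h1 h2 =>
    EZ_dev_le hF hB _ fun i => by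
      rcases eq_or_ne i j with rfl | hij
      · rw [Function.update_self]; exact ⟨h1, h2⟩
      · rw [Function.update_of_ne hij]; exact ⟨hlo.le.trans (hbox i).1, by linarith [(hbox i).2]⟩
  have hs : ∀ a, IntZ fun z => φ (lam j + δ) a z + φ (lam j - δ) a z + φ (lam j) a z :=
    fun a => ((hi' _ a).add (hi' _ a)).add (hi' _ a)
  have iH : ∀ a, IntZ fun z => HB (n := n) (Bw a) R₀ k S β h (Us a) lam z j / N :=
    fun a => (intZ_HB (hB.pos a) j).div_const _
  have hΘ : EZ (fun a z => |HB (n := n) (Bw a) R₀ k S β h (Us a) lam z j / N - G'|) ≤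
      thMax N R₀ η lo hi δ Δ (gainCap S β) := by
    refine (EZ_mono (fun a => ((iH a).sub (integrable_const _)).abs)
      (fun a => (intZ_const (C * δ)).addF ((hs a).div_const δ)) hpt).trans ?_
    rw [EZ_add (fun a => intZ_const (C * δ)) fun a => (hs a).div_const δ, EZ_const, EZ_div_const,
      EZ_add (fun a => (hi' (lam j + δ) a).addF (hi' (lam j - δ) a)) (hi' (lam j)), EZ_add (hi' _) (hi' _)]
    unfold thMax
    refine add_le_add le_rfl (div_le_div_of_nonneg_right ?_ hδ.le)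
    have := (hbox j).2
    linarith [hEF _ (show 0 ≤ lam j + δ by linarith) this, hEF _ (show 0 ≤ lam j - δ by linarith) (by linarith),
      hEF _ hx.le (by linarith)]
  have hfo : |EZ (fun a z => HB (n := n) (Bw a) R₀ k S β h (Us a) lam z j) / N - G'| ≤
      thMax N R₀ η lo hi δ Δ (gainCap S β) := by
    have e := EZ_sub iH (fun _ : A => intZ_const (N := N) (R := k * R₀) (n := n) G')
    rw [EZ_div_const, EZ_const] at e
    rw [← e]
    exact (abs_EZ_le fun a => (iH a).sub (integrable_const _)).trans hΘ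
  refine ⟨hfo, ?_⟩
  refine (EZ_mono (fun a => ((iH a).sub (integrable_const _)).abs)
    (fun a => ((IntZ.subF (iH a) (intZ_const G')).absF).addF (intZ_const (thMax N R₀ η lo hi δ Δ (gainCap S β))))
    fun a z => (abs_sub_le _ G' _).trans (add_le_add le_rfl ((abs_sub_comm _ _).trans_le hfo))).trans ?_
  rw [EZ_add (fun a => (IntZ.subF (iH a) (intZ_const G')).absF) (fun _ => intZ_const _), EZ_const]
  linarith

/-! ### block tails -/

/-- the block tail of the random profile -/
noncomputable def TB (bw : (Fin N → Bool) → ℝ) (R₀ k S : ℕ) (β : ι → Batch) (h u : ι → ℝ) (lam : Fin R₀ → ℝ)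
    (z : Fin N × Ix (k * R₀) n → ℝ) (j : ℕ) : ℝ :=
  tailAvg (k * R₀) (j * k) (rB bw R₀ k S β h u lam z)

/-- the mean block tail -/
noncomputable def Tbar (Bw : A → (Fin N → Bool) → ℝ) (n R₀ k S : ℕ) (β : ι → Batch) (h : ι → ℝ)
    (Us : A → ι → ℝ) (lam : Fin R₀ → ℝ) (j : ℕ) : ℝ :=
  EZ fun a z => TB (n := n) (Bw a) R₀ k S β h (Us a) lam z j

variable {bw : (Fin N → Bool) → ℝ} {u : ι → ℝ}

omit [Nonempty A] [Fintype A] in
lemma continuous_TB (hb : ∀ σ, 0 < bw σ) (j : ℕ) :
    Continuous fun z : Fin N × Ix (k * R₀) n → ℝ => TB bw R₀ k S β h u lam z j := by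
  unfold TB tailAvg
  exact (continuous_finsetSum _ fun l _ => continuous_rB hb l).div_const _

lemma TB_mem (hb : ∀ σ, 0 < bw σ) (z : Fin N × Ix (k * R₀) n → ℝ) (j : ℕ) :
    0 ≤ TB bw R₀ k S β h u lam z j ∧ TB bw R₀ k S β h u lam z j ≤ 1 :=
  tail_mem (rB_prof hb z).1

lemma intZ_TB (hb : ∀ σ, 0 < bw σ) (j : ℕ) : IntZ fun z => TB (n := n) bw R₀ k S β h u lam z j :=
  intZ_of_bound (continuous_TB hb j) fun z => abs_le.2
    ⟨by linarith [(TB_mem (S := S) (β := β) (h := h) (u := u) (lam := lam) hb z j).1], (TB_mem hb z j).2⟩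

lemma tail_meanZ (hb : ∀ σ, 0 < bw σ) (j : ℕ) :
    (tailAvg (k * R₀) (j * k) fun l => meanZ fun z => rB (n := n) bw R₀ k S β h u lam z l) =
      meanZ fun z => TB (n := n) bw R₀ k S β h u lam z j := by
  simp only [TB, tailAvg, meanZ]
  rw [integral_div, integral_finsetSum _ fun l _ => intZ_rB hb l]

/-- **tails and variance of one block at a maximiser over the grid** -/
theorem block_at_max (hF : FieldB) (hB : Base Bw R₀ k h Us Δ) (hq : Prof R₀ q₀ 1) (hη : 0 ≤ η) {j : Fin R₀}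
    {lo hi δ e t : ℝ} (hlo : 0 < lo) (hδ : 0 < δ) (hbox : ∀ i, lo ≤ lam i ∧ lam i + δ ≤ hi)
    (hδ2 : δ ≤ lam j / 2)
    (hmax : ∀ d, (d = δ ∨ d = -δ) → GB Bw n R₀ k S β h Us q₀ η (Function.update lam j (lam j + d)) ≤
      GB Bw n R₀ k S β h Us q₀ η lam)
    (hI : ∀ a, |meanZ (fun z => HB (n := n) (Bw a) R₀ k S β h (Us a) lam z j) -
        lam j * N * (1 - tailAvg (k * R₀) (j * k) fun l =>
          meanZ fun z => rB (n := n) (Bw a) R₀ k S β h (Us a) lam z l)| ≤ N * e ∧
      |meanZ (fun z => HB (n := n) (Bw a) R₀ k S β h (Us a) lam z j *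
          tailAvg (k * R₀) (j * k) (rB (n := n) (Bw a) R₀ k S β h (Us a) lam z)) -
        lam j * N * meanZ (fun z =>
          (1 - tailAvg (k * R₀) (j * k) (rB (n := n) (Bw a) R₀ k S β h (Us a) lam z)) *
            tailAvg (k * R₀) (j * k) (rB (n := n) (Bw a) R₀ k S β h (Us a) lam z))| ≤
        N * (12 * |lam j| * meanZ (fun z =>
          adev (k * R₀) (wB (n := n) (Bw a) R₀ k S β h (Us a) lam z) (ovK (spinX cfg (k * R₀)))
            (rB (n := n) (Bw a) R₀ k S β h (Us a) lam z)) + e))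
    (had : EZ (fun a => adB (n := n) (Bw a) R₀ k S β h (Us a) lam) ≤ t) :
    tailAvg R₀ j q₀ - (e + thMax N R₀ η lo hi δ Δ (gainCap S β)) / lo ≤ Tbar Bw n R₀ k S β h Us lam j ∧
    lam j * EZ (fun a z => (TB (n := n) (Bw a) R₀ k S β h (Us a) lam z j - Tbar Bw n R₀ k S β h Us lam j) ^ 2) ≤
      e + (12 * hi * t + e) + 2 * thMax N R₀ η lo hi δ Δ (gainCap S β) := by
  have hN : (0:ℝ) < N := by exact_mod_cast Nat.pos_of_ne_zero (NeZero.ne N)
  obtain ⟨hfo, hΘ⟩ := energy_conc hF hB hq hη hlo hδ hbox hδ2 hmax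
  set Θ := thMax N R₀ η lo hi δ Δ (gainCap S β)
  have hx : 0 < lam j := hlo.trans_le (hbox j).1
  set T := fun a z => TB (n := n) (Bw a) R₀ k S β h (Us a) lam z j with hT
  set H := fun a z => HB (n := n) (Bw a) R₀ k S β h (Us a) lam z j
  have etb : Tbar Bw n R₀ k S β h Us lam j = EZ T := rfl
  rw [etb]
  set τ := EZ T
  set G' := EZ H / (N : ℝ)
  have iT : ∀ a, IntZ (T a) := fun a => intZ_TB (hB.pos a) _
  have iH : ∀ a, IntZ (H a) := fun a => intZ_HB (hB.pos a) j
  have hT01 : ∀ a z, 0 ≤ T a z ∧ T a z ≤ 1 := fun a z => TB_mem (hB.pos a) z _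
  have iTT : ∀ a, IntZ fun z => T a z * T a z := fun a =>
    intZ_of_bound ((continuous_TB (hB.pos a) _).mul (continuous_TB (hB.pos a) _)) (C := 1) fun z => by
      obtain ⟨x0, x1⟩ := hT01 a z
      rw [abs_of_nonneg (mul_nonneg x0 x0)]
      exact mul_le_one₀ x1 x0 x1
  have iHT : ∀ a, IntZ fun z => H a z * T a z := fun a =>
    intZ_of_l1 ((continuous_HB (hB.pos a) j).mul (continuous_TB (hB.pos a) _)) (A := 0) (C := 1) fun z => by
      obtain ⟨x0, x1⟩ := hT01 a z
      rw [abs_mul, abs_of_nonneg x0, zero_add, one_mul]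
      exact (mul_le_of_le_one_right (abs_nonneg _) x1).trans (abs_HB_le (hB.pos a) z j)
  have h1 : |G' - lam j * (1 - τ)| ≤ e := by
    have hI1 := fun a => (hI a).1
    simp only [tail_meanZ (hB.pos _)] at hI1
    have hh : |avg (fun a => meanZ (H a) - lam j * N * (1 - meanZ (T a)))| ≤ N * e :=
      abs_le.2 ⟨(avg_const _).symm.trans_le (avg_le_avg fun a => (abs_le.1 (hI1 a)).1),
        (avg_le_avg fun a => (abs_le.1 (hI1 a)).2).trans_eq (avg_const _)⟩
    have e' : G' - lam j * (1 - τ) = avg (fun a => meanZ (H a) - lam j * N * (1 - meanZ (T a))) / N := by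
      simp only [G', τ, EZ, avg, mul_sub, mul_one, sum_sub_distrib, sum_const, card_univ, nsmul_eq_mul, ← mul_sum]
      field_simp
    rw [e', abs_div, abs_of_pos hN, div_le_iff₀ hN, mul_comm e]
    exact hh
  have h2 : |EZ (fun a z => H a z * T a z) / N - lam j * (τ - EZ fun a z => T a z * T a z)| ≤ 12 * hi * t + e := by
    have e1 : EZ (fun a z => (1 - T a z) * T a z) = τ - EZ (fun a z => T a z * T a z) := by
      rw [show (fun a z => (1 - T a z) * T a z) = fun a z => T a z - T a z * T a z by funext a z; ring,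
        EZ_sub iT iTT]
    rw [← e1]
    have hI2 := fun a => (hI a).2
    have hh : |avg (fun a => meanZ (fun z => H a z * T a z) - lam j * N * meanZ fun z => (1 - T a z) * T a z)| ≤
        avg fun a => N * (12 * |lam j| * meanZ (adB (n := n) (Bw a) R₀ k S β h (Us a) lam) + e) :=
      abs_le.2 ⟨by
        have := avg_le_avg (f := fun a => -(N * (12 * |lam j| * meanZ (adB (n := n) (Bw a) R₀ k S β h (Us a) lam) + e)))
          (g := fun a => meanZ (fun z => H a z * T a z) - lam j * N * meanZ fun z => (1 - T a z) * T a z)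
          fun a => (abs_le.1 (hI2 a)).1
        simpa [avg, neg_div] using this,
        avg_le_avg fun a => (abs_le.1 (hI2 a)).2⟩
    have e' : EZ (fun a z => H a z * T a z) / N - lam j * EZ (fun a z => (1 - T a z) * T a z) =
        avg (fun a => meanZ (fun z => H a z * T a z) - lam j * N * meanZ fun z => (1 - T a z) * T a z) / N := by
      simp only [EZ, avg, sum_sub_distrib, ← mul_sum]
      field_simp
    rw [e', abs_div, abs_of_pos hN, div_le_iff₀ hN]
    refine hh.trans ?_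
    have e2 : avg (fun a => N * (12 * |lam j| * meanZ (adB (n := n) (Bw a) R₀ k S β h (Us a) lam) + e)) =
        N * (12 * |lam j| * EZ (fun a => adB (n := n) (Bw a) R₀ k S β h (Us a) lam) + e) := by
      simp only [EZ, avg, ← mul_sum, sum_add_distrib, sum_const, card_univ, nsmul_eq_mul]
      field_simp
    rw [e2, mul_comm (_ + e) (N:ℝ)]
    refine mul_le_mul_of_nonneg_left (add_le_add ?_ le_rfl) hN.le
    have h0 : 0 ≤ EZ (fun a => adB (n := n) (Bw a) R₀ k S β h (Us a) lam) :=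
      (EZ_const 0).symm.trans_le (EZ_mono (fun _ => intZ_const 0) (fun a => intZ_adB (hB.pos a) hB.kR)
        fun a z => (adB_mem (hB.pos a) hB.kR z).1)
    rw [abs_of_pos hx]
    exact mul_le_mul (mul_le_mul_of_nonneg_left (by linarith [(hbox j).2]) (by norm_num)) had h0
      (by have := (hbox j).2; linarith)
  refine ⟨?_, ?_⟩
  · have h3 : |G' - -(2 * aCoef R₀ q₀ j * lam j + η / lam j)| ≤ Θ := hfo
    rw [aCoef] at h3
    have hη' : 0 ≤ η / lam j := by positivity
    have h4 : lam j * (tailAvg R₀ j q₀ - τ) ≤ e + Θ := by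
      nlinarith [(abs_le.1 h1).1, (abs_le.1 h3).2]
    have h5 : tailAvg R₀ j q₀ - τ ≤ (e + Θ) / lam j := by rwa [le_div_iff₀ hx, mul_comm]
    have h6 : (e + Θ) / lam j ≤ (e + Θ) / lo :=
      div_le_div_of_nonneg_left (add_nonneg ((abs_nonneg _).trans h1) ((abs_nonneg _).trans h3)) hlo (hbox j).1
    linarith
  · have hmix : |EZ (fun a z => H a z * T a z) / N - G' * τ| ≤ 2 * Θ := by
      have e' : EZ (fun a z => (H a z / N - G') * T a z) = EZ (fun a z => H a z * T a z) / N - G' * τ := by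
        rw [show (fun a z => (H a z / N - G') * T a z) =
            fun a z => H a z * T a z / (N:ℝ) - G' * T a z by funext a z; ring,
          EZ_sub (fun a => (iHT a).div_const _) (fun a => (iT a).const_mul _), EZ_div_const, EZ_const_mul]
      have iD : ∀ a, IntZ fun z => (H a z / N - G') * T a z := fun a => by
        rw [show (fun z => (H a z / N - G') * T a z) =
            fun z => H a z * T a z / (N:ℝ) - G' * T a z by funext z; ring]
        exact ((iHT a).div_const _).sub ((iT a).const_mul _)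
      rw [← e']
      refine ((abs_EZ_le iD).trans (EZ_mono (fun a => (iD a).abs)
        (fun a => (((iH a).div_const _).sub (integrable_const _)).abs) fun a z => ?_)).trans hΘ
      obtain ⟨x0, x1⟩ := hT01 a z
      rw [abs_mul, abs_of_nonneg x0]
      exact mul_le_of_le_one_right (abs_nonneg _) x1
    have hvar : EZ (fun a z => (T a z - τ) ^ 2) = EZ (fun a z => T a z * T a z) - τ * τ := by
      rw [show (fun a z => (T a z - τ) ^ 2) =
          fun a z => T a z * T a z - (2 * τ * T a z - τ * τ) by funext a z; ring,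
        EZ_sub iTT fun a => IntZ.subF ((iT a).const_mul (2 * τ)) (intZ_const (τ * τ)),
        EZ_sub (fun a => (iT a).const_mul _) fun _ => intZ_const _, EZ_const_mul, EZ_const]
      ring
    have hτ : 0 ≤ τ ∧ τ ≤ 1 := ⟨(EZ_const 0).symm.trans_le (EZ_mono (fun _ => intZ_const 0) iT fun a z =>
      (hT01 a z).1), (EZ_mono iT (fun _ => intZ_const 1) fun a z => (hT01 a z).2).trans_eq (EZ_const 1)⟩
    have h1' : |(G' - lam j * (1 - τ)) * τ| ≤ e := by
      rw [abs_mul, abs_of_nonneg hτ.1]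
      exact (mul_le_of_le_one_right (abs_nonneg _) hτ.2).trans h1
    rw [hvar]
    linarith [abs_le.1 hmix, abs_le.1 h1', abs_le.1 h2]

/-- mean distance of the block tails from their means -/
theorem tails_near (hB : Base Bw R₀ k h Us Δ) {σ v : ℝ} (hσ : 0 < σ)
    (hv : ∀ j : Fin R₀, EZ (fun a z => (TB (n := n) (Bw a) R₀ k S β h (Us a) lam z j -
      Tbar Bw n R₀ k S β h Us lam j) ^ 2) ≤ v) :
    EZ (fun a z => ∑ j : Fin R₀, |TB (n := n) (Bw a) R₀ k S β h (Us a) lam z j -
      Tbar Bw n R₀ k S β h Us lam j|) ≤ R₀ * (v / σ + σ) := by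
  set D := fun (j : Fin R₀) a z => TB (n := n) (Bw a) R₀ k S β h (Us a) lam z j - Tbar Bw n R₀ k S β h Us lam j
  have iD : ∀ j a, IntZ (D j a) := fun j a => (intZ_TB (hB.pos a) _).sub (integrable_const _)
  have iD2 : ∀ j a, IntZ fun z => D j a z ^ 2 := fun j a =>
    intZ_of_bound (((continuous_TB (hB.pos a) _).sub continuous_const).pow 2)
      (C := (1 + |Tbar Bw n R₀ k S β h Us lam j|) ^ 2) fun z => by
      obtain ⟨x0, x1⟩ := TB_mem (S := S) (β := β) (h := h) (u := Us a) (lam := lam) (hB.pos a) z j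
      rw [abs_pow]
      refine pow_le_pow_left₀ (abs_nonneg _) ((abs_sub _ _).trans ?_) 2
      rw [abs_of_nonneg x0]
      linarith
  rw [EZ_sum _ fun j _ a => (iD j a).abs]
  refine (sum_le_card_nsmul _ _ (v / σ + σ) fun j _ => ?_).trans_eq (by rw [nsmul_eq_mul, card_univ, Fintype.card_fin])
  refine (EZ_mono (fun a => (iD j a).abs) (fun a => IntZ.addF ((iD2 j a).div_const σ) (intZ_const σ))
    fun a z => ?_).trans ?_
  · show |D j a z| ≤ D j a z ^ 2 / σ + σ
    have : 2 * |D j a z| ≤ D j a z ^ 2 / σ + σ := by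
      rw [← sub_nonneg, show D j a z ^ 2 / σ + σ - 2 * |D j a z| = (|D j a z| - σ) ^ 2 / σ by
        field_simp; rw [← sq_abs (D j a z)]; ring]
      positivity
    linarith [abs_nonneg (D j a z)]
  · rw [EZ_add (fun a => (iD2 j a).div_const σ) (fun _ => intZ_const σ), EZ_div_const, EZ_const]
    exact add_le_add (div_le_div_of_nonneg_right (hv j) hσ.le) le_rfl

end Vale.Agent.P166.Gen.Up
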