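import Vale.Agent.P157.Full.Tangent
import Vale.Agent.P157.Full.EnvMax
import Vale.Agent.P166.Gen.Up.EnvErr
import Vale.Agent.P166.Gen.Up.EnvMax

/-!
At one frame: the climb in the inverse temperature. On each step the amplitudes maximise the objective
over a finite grid; there the energy per site is at most the slope of the energy at the chosen path, up to
the error of the rotation identities summed over the grid.
-/

open MeasureTheory ProbabilityTheory Real Finset Filter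
open Vale.Agent.P150 (gauss)
open Vale.Agent.P168.MP (lin Batch gainCap avg avg_le_avg avg_const)
open Vale.Agent.P157.Full (qh psiH dotH lamPath lamPath_top prof_lamPath affX affX_eq aCoef tailAvg tail_mem
  confine psi_tangent qh_prof spinX cfg)
open Vale.Agent.P157.Par (Site Ix Prof adev ovK)
open Vale.Agent.P157.Lim (wt)

noncomputable section

namespace Vale.Agent.P166.Gen.Up

variable {N n S R₀ k m : ℕ} [NeZero N] {ι : Type} [Fintype ι] [DecidableEq ι] {β : ι → Batch} {h : ι → ℝ}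
  {A : Type} [Fintype A] [Nonempty A] {Us : A → ι → ℝ} {sh : A → Fin m → ℝ} {lab : Fin N → Fin m}
  {w θ : Fin m → ℝ} {U : Mat N} {q₀ : ℕ → ℝ} {η : ℝ}

/-- the shifted atoms at the inverse temperature `b` -/
def thA (θ : Fin m → ℝ) (sh : A → Fin m → ℝ) (b : ℝ) (a : A) (j : Fin m) : ℝ := b * θ j + sh a j

/-- the coupling bases at the inverse temperature `b` -/
def bwA (θ : Fin m → ℝ) (sh : A → Fin m → ℝ) (lab : Fin N → Fin m) (U : Mat N) (b : ℝ) (a : A) :
    (Fin N → Bool) → ℝ :=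
  wJ (thA θ sh b a) lab U

/-- the mean error of the rotation identities at one inverse temperature and amplitude vector -/
def errA (w θ : Fin m → ℝ) (sh : A → Fin m → ℝ) (lab : Fin N → Fin m) (U : Mat N) (n R₀ k S : ℕ)
    (β : ι → Batch) (h : ι → ℝ) (Us : A → ι → ℝ) (b : ℝ) (lam : Fin R₀ → ℝ) : ℝ :=
  EZ fun a => povErr (n := n) w (fun i => b * θ i) (thA θ sh b a) lab U R₀ k S β h (Us a) lam

omit [NeZero N] [Fintype ι] [DecidableEq ι] [Fintype A] [Nonempty A] in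
lemma base_bwA (hU : Orth U) {ub : ℝ} (hsh : ∀ a j, |sh a j| ≤ ub) (hR₀ : 1 ≤ R₀) (hk : 1 ≤ k)
    (hh : ∀ j, |h j| ≤ 1) (hu : ∀ a j, |Us a j| ≤ 1) (b : ℝ) :
    Base (bwA θ sh lab U b) R₀ k h Us (ub * N) where
  pos a σ := wJ_pos _ _ _ _
  near a a' σ := by
    refine (log_wJ_near hU (D := 2 * ub) (fun j => ?_) σ).trans_eq (by ring)
    rw [show thA θ sh b a j - thA θ sh b a' j = sh a j - sh a' j by unfold thA; ring]
    linarith [abs_sub (sh a j) (sh a' j), hsh a j, hsh a' j]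
  one_R := hR₀
  one_k := hk
  hh := hh
  hu := hu

variable {lam : Fin R₀ → ℝ}

lemma intZ_povErr (ha : Atoms w θ) (hR : 1 ≤ k * R₀) (hU : Orth U) (θ' : Fin m → ℝ) {u : ι → ℝ} :
    IntZ (povErr (n := n) w θ θ' lab U R₀ k S β h u lam) := by
  have hc := continuous_povErr (n := n) (S := S) (β := β) (h := h) (u := u) (lam := lam) (k := k) ha θ' lab
  have hc' : Continuous fun z : Fin N × Ix (k * R₀) n → ℝ => povErr w θ θ' lab U R₀ k S β h u lam z := by
    have h1 := hc.comp (Continuous.prodMk_right (Y := Fin N × Ix (k * R₀) n → ℝ) U)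
    simp only [Function.comp_def] at h1
    exact h1
  refine intZ_of_bound hc' (C := 4 * m) fun z => ?_
  have hm := povErr_mem (n := n) (S := S) (β := β) (h := h) (u := u) (lam := lam) (lab := lab) (k := k) ha hR hU θ' z
  rw [abs_of_nonneg hm.1]; exact hm.2

lemma errA_nonneg (ha : Atoms w θ) (hR : 1 ≤ k * R₀) (hU : Orth U) {b : ℝ} (hb : 0 < b) :
    0 ≤ errA w θ sh lab U n R₀ k S β h Us b lam :=
  (EZ_const 0).symm.trans_le (EZ_mono (fun _ => intZ_const 0)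
    (fun _ => intZ_povErr (atoms_smul ha hb) hR hU _) fun _ z => (povErr_mem (atoms_smul ha hb) hR hU _ z).1)

/-- **the energy per site at a maximiser over the grid** -/
theorem slope_max (hF : FieldB) (ha : Atoms w θ) (hU : Orth U) {ub : ℝ} (hsh : ∀ a j, |sh a j| ≤ ub)
    (hR₀ : 1 ≤ R₀) (hk : 1 ≤ k) (hh : ∀ j, |h j| ≤ 1) (hu : ∀ a j, |Us a j| ≤ 1) (hq : Prof R₀ q₀ 1)
    (hη : 0 ≤ η) {ω K : ℝ} (hK0 : 0 ≤ K) (hK : ∀ y ∈ Set.Icc (0:ℝ) 1,
      ∀ y' ∈ Set.Icc (0:ℝ) 1, ∀ x : ℝ, 0 ≤ x → y ≤ y' + x → slopeR w θ y ≤ slopeR w θ y' + ω + K * x)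
    {b : ℝ} (hb : 0 < b) (hb1 : b ≤ 1) {lo hi δ e t σ v e' : ℝ} (hlo : 0 < lo) (hδ : 0 < δ) (hσ : 0 < σ)
    (hbox : ∀ i, lo ≤ lam i ∧ lam i + δ ≤ hi) (hδ2 : ∀ i, δ ≤ lam i / 2)
    (hmax : ∀ j d, (d = δ ∨ d = -δ) → GB (bwA θ sh lab U b) n R₀ k S β h Us q₀ η (Function.update lam j (lam j + d)) ≤
      GB (bwA θ sh lab U b) n R₀ k S β h Us q₀ η lam)
    (hI : ∀ a (j : Fin R₀), |meanZ (fun z => HB (n := n) (bwA θ sh lab U b a) R₀ k S β h (Us a) lam z j) -
        lam j * N * (1 - tailAvg (k * R₀) (j * k) fun l =>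
          meanZ fun z => rB (n := n) (bwA θ sh lab U b a) R₀ k S β h (Us a) lam z l)| ≤ N * e ∧
      |meanZ (fun z => HB (n := n) (bwA θ sh lab U b a) R₀ k S β h (Us a) lam z j *
          tailAvg (k * R₀) (j * k) (rB (n := n) (bwA θ sh lab U b a) R₀ k S β h (Us a) lam z)) -
        lam j * N * meanZ (fun z =>
          (1 - tailAvg (k * R₀) (j * k) (rB (n := n) (bwA θ sh lab U b a) R₀ k S β h (Us a) lam z)) *
            tailAvg (k * R₀) (j * k) (rB (n := n) (bwA θ sh lab U b a) R₀ k S β h (Us a) lam z))| ≤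
        N * (12 * |lam j| * meanZ (fun z =>
          adev (k * R₀) (wB (n := n) (bwA θ sh lab U b a) R₀ k S β h (Us a) lam z) (ovK (spinX cfg (k * R₀)))
            (rB (n := n) (bwA θ sh lab U b a) R₀ k S β h (Us a) lam z)) + e))
    (had : EZ (fun a => adB (n := n) (bwA θ sh lab U b a) R₀ k S β h (Us a) lam) ≤ t)
    (hnum : 2 * e + 12 * hi * t + 2 * thMax N R₀ η lo hi δ (ub * N) (gainCap S β) ≤ lo * v)
    (he' : (e + thMax N R₀ η lo hi δ (ub * N) (gainCap S β)) / lo ≤ e') (he0 : 0 ≤ e') :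
    EZ (fun a => slopeB (n := n) θ (thA θ sh b a) lab U R₀ k S β h (Us a) lam) ≤
      slopeI w θ R₀ q₀ b + (ω + K * (e' + R₀ * (v / σ + σ))) / 2 +
        (∑ j, |θ j|) / 2 * errA w θ sh lab U n R₀ k S β h Us b lam := by
  have hB := base_bwA (θ := θ) (lab := lab) (h := h) (Us := Us) hU hsh hR₀ hk hh hu b
  have hR := hB.kR
  have hblock := fun j => block_at_max (n := n) (S := S) (β := β) hF hB hq hη (j := j) hlo hδ hbox (hδ2 j) (hmax j)
    (fun a => hI a j) had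
  set T := fun a z (j : Fin R₀) => TB (n := n) (bwA θ sh lab U b a) R₀ k S β h (Us a) lam z j
  set Tm := fun j : Fin R₀ => Tbar (bwA θ sh lab U b) n R₀ k S β h Us lam j
  set X := fun a z => ∑ j : Fin R₀, |T a z j - Tm j|
  have hv : ∀ j : Fin R₀, EZ (fun a z => (T a z j - Tm j) ^ 2) ≤ v := fun j => by
    refine le_of_mul_le_mul_left ?_ hlo
    refine (mul_le_mul_of_nonneg_right (hbox j).1 ((EZ_const 0).symm.trans_le (EZ_mono (fun _ => intZ_const 0)
      (fun a => intZ_of_bound (((continuous_TB (hB.pos a) _).sub continuous_const).pow 2)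
        (C := (1 + |Tm j|) ^ 2) fun z => ?_) fun a z => sq_nonneg _))).trans ((hblock j).2.trans (by linarith))
    obtain ⟨x0, x1⟩ := TB_mem (S := S) (β := β) (h := h) (u := Us a) (lam := lam) (hB.pos a) z j
    show |(T a z j - Tm j) ^ 2| ≤ _
    rw [abs_pow]
    refine pow_le_pow_left₀ (abs_nonneg _) ((abs_sub _ _).trans ?_) 2
    rw [abs_of_nonneg x0]; linarith
  have hX := tails_near (n := n) (S := S) (β := β) (lam := lam) hB hσ hv
  have iX : ∀ a, IntZ (X a) := fun a =>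
    intZ_of_bound (continuous_finsetSum _ fun j _ => ((continuous_TB (hB.pos a) _).sub continuous_const).abs)
      (C := ∑ j, (1 + |Tm j|)) fun z => by
      rw [abs_of_nonneg (sum_nonneg fun j _ => abs_nonneg _)]
      refine sum_le_sum fun j _ => (abs_sub _ _).trans ?_
      obtain ⟨x0, x1⟩ := TB_mem (S := S) (β := β) (h := h) (u := Us a) (lam := lam) (hB.pos a) z j
      rw [abs_of_nonneg x0]; linarith
  set G := ∑ j, |θ j|
  set P := fun a z => povErr (n := n) w (fun i => b * θ i) (thA θ sh b a) lab U R₀ k S β h (Us a) lam z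
  have iP : ∀ a, IntZ (P a) := fun a => intZ_povErr (atoms_smul ha hb) hR hU _
  set c0 := slopeI w θ R₀ q₀ b + (ω + K * e') / 2
  have hpt : ∀ a z, slopeB (n := n) θ (thA θ sh b a) lab U R₀ k S β h (Us a) lam z ≤
      c0 + K / 2 * X a z + G / 2 * P a z := fun a z => by
    have h1 := (abs_le.1 (slope_dev (lab := lab) (U := U) (S := S) (β := β) (h := h) (u := Us a) (lam := lam)
      ha hb (thA θ sh b a) z)).2
    have hX0 : 0 ≤ X a z := sum_nonneg fun j _ => abs_nonneg _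
    have h2 := slopeI_blocks ha hK hR₀ hk hq (rB_prof (S := S) (β := β) (h := h) (u := Us a) (lam := lam)
      (hB.pos a) z).1 hb.le hb1 (e := e' + X a z) (by linarith) fun j hj => by
      have hb' := (hblock ⟨j, hj⟩).1
      have hXj : |T a z ⟨j, hj⟩ - Tm ⟨j, hj⟩| ≤ X a z :=
        single_le_sum (f := fun j => |T a z j - Tm j|) (fun _ _ => abs_nonneg _) (mem_univ _)
      show tailAvg R₀ j q₀ - (e' + X a z) ≤ T a z ⟨j, hj⟩
      linarith [(abs_le.1 hXj).1]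
    show slopeB θ (thA θ sh b a) lab U R₀ k S β h (Us a) lam z ≤ _
    simp only [P, c0]
    have : G * P a z / 2 = G / 2 * P a z := by ring
    simp only [P] at this
    rw [bwA] at h2
    linarith
  have iS : ∀ a, IntZ (slopeB (n := n) θ (thA θ sh b a) lab U R₀ k S β h (Us a) lam) := fun a =>
    intZ_of_bound (P157.Par.continuous_ET continuous_wB (fun z p => wB_pos (hB.pos a) z p) _ _
      fun _ => continuous_const) (abs_slopeB_le θ (thA θ sh b a) lab hU)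
  refine (EZ_mono iS (fun a => IntZ.addF (IntZ.addF (intZ_const c0) ((iX a).const_mul _)) ((iP a).const_mul _))
    hpt).trans ?_
  rw [EZ_add (fun a => IntZ.addF (intZ_const c0) ((iX a).const_mul _)) (fun a => (iP a).const_mul _),
    EZ_add (fun _ => intZ_const c0) (fun a => (iX a).const_mul _), EZ_const, EZ_const_mul, EZ_const_mul]
  have := mul_le_mul_of_nonneg_left hX (show 0 ≤ K / 2 by linarith)
  simp only [c0, errA]
  linarith

/-! ### the climb -/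

/-- the grid conditions -/
structure GridOK (Gd : Finset (Fin R₀ → ℝ)) (l1 lo hi δ : ℝ) : Prop where
  mem : (fun _ => l1) ∈ Gd
  box : ∀ lam ∈ Gd, ∀ i, 0 < lam i ∧ lam i ≤ hi
  move : ∀ lam ∈ Gd, ∀ j, lo + δ ≤ lam j → lam j + δ ≤ hi → ∀ d, (d = δ ∨ d = -δ) →
    Function.update lam j (lam j + d) ∈ Gd

omit [NeZero N] [Fintype ι] [DecidableEq ι] [Fintype A] [Nonempty A] in
lemma exists_argmax {α : Type} {s : Finset α} (hs : s.Nonempty) (f : α → ℝ) : ∃ x ∈ s, ∀ y ∈ s, f y ≤ f x :=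
  exists_max_image s f hs

/-- an upper bound of the objective at any temperature -/
theorem GB_zero_le
    (hU : Orth U) {ub : ℝ} (hsh : ∀ a j, |sh a j| ≤ ub) (hR₀ : 1 ≤ R₀) (hk : 1 ≤ k) (hh : ∀ j, |h j| ≤ 1)
    (hu : ∀ a j, |Us a j| ≤ 1) {ε L : ℝ} (hθ : ∀ j, |θ j| ≤ L) (hgN : gainCap S β / N ≤ ε) {b : ℝ} (hb : 0 ≤ b)
    (lam : Fin R₀ → ℝ)
    (hn0 : ∀ a, |meanZ (FB (N := N) (n := n) (fun _ => 1) R₀ k S β h (Us a) lam) -
        N * (psiH R₀ (lamPath lam) + lamPath lam R₀ / 2)| ≤ gainCap S β + N * ε) :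
    GB (bwA θ sh lab U b) n R₀ k S β h Us q₀ η lam ≤
      psiH R₀ (lamPath lam) + dotH R₀ (lamPath lam) q₀ / 2 + η * ∑ i, log (lam i) + ((b * L + ub) / 2 + 4 * ε) := by
  have hN : (0:ℝ) < N := by exact_mod_cast Nat.pos_of_ne_zero (NeZero.ne N)
  have hR : 1 ≤ k * R₀ := (base_bwA (θ := θ) (lab := lab) (h := h) (Us := Us) hU hsh hR₀ hk hh hu 0).kR
  have hth : ∀ a j, |thA θ sh b a j| ≤ b * L + ub := fun a j =>
    (abs_add_le _ _).trans (add_le_add (by rw [abs_mul, abs_of_nonneg hb]; exact mul_le_mul_of_nonneg_left (hθ j) hb)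
      (hsh a j))
  set gc := gainCap S β
  have hE : EZ (fun a => FB (n := n) (bwA θ sh lab U b a) R₀ k S β h (Us a) lam) ≤
      N * (psiH R₀ (lamPath lam) + lamPath lam R₀ / 2) + ((b * L + ub) * N / 2 + 3 * gc + N * ε) := by
    refine (avg_le_avg fun a => ?_).trans_eq (avg_const _)
    have h1 := abs_le.1 (abs_meanZ_FB_sub (n := n) (S := S) (β := β) (lam := lam) (u := Us a) (u' := Us a) (h := h)
      (bw := bwA θ sh lab U b a) (fun σ => wJ_pos _ lab U σ) (bw' := fun _ => 1) (fun _ => one_pos)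
      (fun σ => by rw [log_one, sub_zero]; exact abs_log_wJ hU (hth a) σ) hR hh (hu a) (hu a))
    linarith [(abs_le.1 (hn0 a)).2]
  have := div_le_div_of_nonneg_right hE hN.le
  rw [add_div, mul_div_cancel_left₀ _ hN.ne', add_div, add_div, mul_div_cancel_left₀ _ hN.ne',
    show (b * L + ub) * N / 2 / (N:ℝ) = (b * L + ub) / 2 by field_simp,
    show 3 * gc / (N:ℝ) = 3 * (gc / N) by ring] at this
  simp only [GB]
  rw [affX_eq]
  linarith

/-- a lower bound of the objective at small amplitudes -/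
theorem GB_low_le (hE : GeB)
    (hU : Orth U) {ub : ℝ} (hsh : ∀ a j, |sh a j| ≤ ub) (hR₀ : 1 ≤ R₀) (hk : 1 ≤ k) (hh : ∀ j, |h j| ≤ 1)
    (hu : ∀ a j, |Us a j| ≤ 1) (hub : 0 ≤ ub) (hq : Prof R₀ q₀ 1) (hη : 0 ≤ η) {l1 ε : ℝ}
    (he1 : R₀ * (l1 ^ 2 + η * |log l1|) ≤ 2 * ε) (hgN : gainCap S β / N ≤ ε) (b : ℝ) :
    log (∑ σ, wt N σ * wJ (fun j => b * θ j) lab U σ) / N - ub - 3 * ε ≤
      GB (bwA θ sh lab U b) n R₀ k S β h Us q₀ η fun _ => l1 := by
  have hN : (0:ℝ) < N := by exact_mod_cast Nat.pos_of_ne_zero (NeZero.ne N)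
  set gc := gainCap S β
  have hE : log (∑ σ, wt N σ * wJ (fun j => b * θ j) lab U σ) - ub * N / 2 - gc ≤
      EZ (fun a => FB (n := n) (bwA θ sh lab U b a) R₀ k S β h (Us a) fun _ => l1) := by
    refine (avg_const _).symm.trans_le (avg_le_avg fun a => ?_)
    have h1 := hE (N := N) (n := n) (S := S) hR₀ hk β h (Us a) hh (hu a) (bwA θ sh lab U b a)
      (fun σ => wJ_pos _ lab U σ) fun _ => l1
    have h2 : log (∑ σ, wt N σ * wJ (fun j => b * θ j) lab U σ) - ub * N / 2 ≤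
        log (∑ σ, wt N σ * bwA θ sh lab U b a σ) := by
      have hpos : ∀ θ'' : Fin m → ℝ, 0 < ∑ σ, wt N σ * wJ θ'' lab U σ := fun θ'' =>
        sum_pos (fun σ _ => mul_pos (by unfold wt; positivity) (wJ_pos θ'' lab U σ)) univ_nonempty
      rw [sub_le_iff_le_add, ← log_exp (ub * N / 2), bwA, ← log_mul (hpos _).ne' (exp_pos _).ne', sum_mul]
      refine log_le_log (hpos _) (sum_le_sum fun σ _ => ?_)
      rw [mul_assoc]
      refine mul_le_mul_of_nonneg_left ?_ (by unfold wt; positivity)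
      have h3 := (abs_le.1 (log_wJ_near (lab := lab) hU (θ := fun j => b * θ j) (θ' := thA θ sh b a) (D := ub)
        (fun j => by simp only [thA]; rw [sub_add_cancel_left, abs_neg]; exact hsh a j) σ)).2
      rw [← exp_log (wJ_pos (fun j => b * θ j) lab U σ), ← exp_log (wJ_pos (thA θ sh b a) lab U σ), ← exp_add]
      exact exp_le_exp.2 (by linarith)
    linarith
  have h2 := div_le_div_of_nonneg_right hE hN.le
  rw [sub_div, sub_div, show ub * N / 2 / (N:ℝ) = ub / 2 by field_simp] at h2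
  have haff : ∀ i : Fin R₀, -(l1 ^ 2 + η * |log l1|) ≤ aCoef R₀ q₀ i * l1 ^ 2 + η * log l1 := fun i => by
    have : -1 ≤ aCoef R₀ q₀ i := by
      have := (tail_mem (J := (i:ℕ)) hq).1
      unfold aCoef; linarith
    have := mul_le_mul_of_nonneg_right this (sq_nonneg l1)
    have := mul_le_mul_of_nonneg_left (neg_abs_le (log l1)) hη
    linarith
  have h3 : -(R₀ * (l1 ^ 2 + η * |log l1|)) ≤ affX q₀ η (fun _ : Fin R₀ => l1) := by
    refine le_trans ?_ (card_nsmul_le_sum _ _ _ fun i _ => haff i)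
    rw [nsmul_eq_mul, card_univ, Fintype.card_fin, mul_neg]
  simp only [GB]
  linarith

/-- one step of the climb -/
theorem climb_step (hF : FieldB) (hE : GeB) (ha : Atoms w θ)
    (hU : Orth U) {ub : ℝ} (hsh : ∀ a j, |sh a j| ≤ ub) (hR₀ : 1 ≤ R₀) (hk : 1 ≤ k) (hh : ∀ j, |h j| ≤ 1)
    (hu : ∀ a j, |Us a j| ≤ 1) (hub : 0 ≤ ub) {h₀ : ℕ → ℝ} {V₀ : ℝ}
    (hh₀ : Prof R₀ h₀ V₀) {c C : ℝ} (hc : 0 < c)
    (hco : ∀ (g : ℕ → ℝ) (V : ℝ), Prof R₀ g V → psiH R₀ g + dotH R₀ g (qh R₀ h₀) / 2 ≤ C - c * g (R₀ - 1))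
    {Gd : Finset (Fin R₀ → ℝ)} {l1 lo hi δ : ℝ} (hG : GridOK Gd l1 lo hi δ) (hlo : 0 < lo) (hδ : 0 < δ)
    (hη : 0 < η) (hη1 : η ≤ 1) {ε : ℝ} (hε : ε ≤ 1) (hub1 : ub ≤ 1)
    (he1 : R₀ * (l1 ^ 2 + η * |log l1|) ≤ 2 * ε) (hgN : gainCap S β / N ≤ ε) {L : ℝ}
    (hL : ∑ j, |θ j| ≤ L)
    (hhi : √(2 * ((C + (L + 7)) + (L + 7) + R₀ / (2 * c)) / c) + δ ≤ hi)
    (hx1 : lo + δ ≤ exp (-((C + (L + 7)) + (L + 7) + R₀ / (2 * c)) / η))
    (hx2 : 2 * δ ≤ exp (-((C + (L + 7)) + (L + 7) + R₀ / (2 * c)) / η))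
    {ω K e t σ v e' : ℝ} (hK0 : 0 ≤ K) (hK : ∀ y ∈ Set.Icc (0:ℝ) 1,
      ∀ y' ∈ Set.Icc (0:ℝ) 1, ∀ x : ℝ, 0 ≤ x → y ≤ y' + x → slopeR w θ y ≤ slopeR w θ y' + ω + K * x)
    (hσ : 0 < σ) (hnum : 2 * e + 12 * hi * t + 2 * thMax N R₀ η lo hi δ (ub * N) (gainCap S β) ≤ lo * v)
    (he' : (e + thMax N R₀ η lo hi δ (ub * N) (gainCap S β)) / lo ≤ e') (he0 : 0 ≤ e')
    {b b' : ℝ} (hb : 0 < b) (hb1 : b ≤ 1) (hb' : b' ≤ b)
    (hn0 : ∀ lam ∈ Gd, ∀ a, |meanZ (FB (N := N) (n := n) (fun _ => 1) R₀ k S β h (Us a) lam) -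
        N * (psiH R₀ (lamPath lam) + lamPath lam R₀ / 2)| ≤ gainCap S β + N * ε)
    (hI : ∀ b : ℝ, 0 < b → b ≤ 1 → ∀ lam ∈ Gd, ∀ a (j : Fin R₀),
      |meanZ (fun z => HB (n := n) (bwA θ sh lab U b a) R₀ k S β h (Us a) lam z j) -
        lam j * N * (1 - tailAvg (k * R₀) (j * k) fun l =>
          meanZ fun z => rB (n := n) (bwA θ sh lab U b a) R₀ k S β h (Us a) lam z l)| ≤ N * e ∧
      |meanZ (fun z => HB (n := n) (bwA θ sh lab U b a) R₀ k S β h (Us a) lam z j *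
          tailAvg (k * R₀) (j * k) (rB (n := n) (bwA θ sh lab U b a) R₀ k S β h (Us a) lam z)) -
        lam j * N * meanZ (fun z =>
          (1 - tailAvg (k * R₀) (j * k) (rB (n := n) (bwA θ sh lab U b a) R₀ k S β h (Us a) lam z)) *
            tailAvg (k * R₀) (j * k) (rB (n := n) (bwA θ sh lab U b a) R₀ k S β h (Us a) lam z))| ≤
        N * (12 * |lam j| * meanZ (fun z =>
          adev (k * R₀) (wB (n := n) (bwA θ sh lab U b a) R₀ k S β h (Us a) lam z) (ovK (spinX cfg (k * R₀)))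
            (rB (n := n) (bwA θ sh lab U b a) R₀ k S β h (Us a) lam z)) + e))
    (had : ∀ b lam, EZ (fun a => adB (n := n) (bwA θ sh lab U b a) R₀ k S β h (Us a) lam) ≤ t) :
    ∃ lam ∈ Gd, (∀ x ∈ Gd, GB (bwA θ sh lab U b) n R₀ k S β h Us (qh R₀ h₀) η x ≤
        GB (bwA θ sh lab U b) n R₀ k S β h Us (qh R₀ h₀) η lam) ∧
      GB (bwA θ sh lab U b) n R₀ k S β h Us (qh R₀ h₀) η lam ≤ GB (bwA θ sh lab U b') n R₀ k S β h Us (qh R₀ h₀) η lam +
        (b - b') * (slopeI w θ R₀ (qh R₀ h₀) b + (ω + K * (e' + R₀ * (v / σ + σ))) / 2 +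
          L / 2 * ∑ x ∈ Gd, errA w θ sh lab U n R₀ k S β h Us b x) := by
  have hN : (0:ℝ) < N := by exact_mod_cast Nat.pos_of_ne_zero (NeZero.ne N)
  have hR : 1 ≤ k * R₀ := (base_bwA (θ := θ) (lab := lab) (h := h) (Us := Us) hU hsh hR₀ hk hh hu 0).kR
  obtain ⟨hq, hq1⟩ := qh_prof hR₀ hh₀
  set q₀ := qh R₀ h₀
  have hθ : ∀ j, |θ j| ≤ L := fun j =>
    (single_le_sum (f := fun j => |θ j|) (fun _ _ => abs_nonneg _) (mem_univ j)).trans hL
  have hL0 : 0 ≤ L := (sum_nonneg fun j _ => abs_nonneg _).trans hL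
  have hne : Gd.Nonempty := ⟨_, hG.mem⟩
  obtain ⟨lam, hlam, hm⟩ := exists_argmax hne fun x => GB (bwA θ sh lab U b) n R₀ k S β h Us q₀ η x
  refine ⟨lam, hlam, hm, ?_⟩
  have hin : ∀ j, lam j + δ ≤ hi ∧ lo + δ ≤ lam j ∧ δ ≤ lam j / 2 := fun j => by
    have hpos : ∀ i, 0 < lam i := fun i => (hG.box lam hlam i).1
    have hp := abs_le.1 (log_Z_bounds (lab := lab) (θ := fun j => b * θ j) hU (L := L) fun j => by
      rw [abs_mul, abs_of_pos hb]; exact le_trans (mul_le_of_le_one_left (abs_nonneg _) hb1) (hθ j))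
    have hp' : -(L / 2) ≤ log (∑ σ, wt N σ * wJ (fun j => b * θ j) lab U σ) / N := by
      rw [le_div_iff₀ hN]; linarith [hp.1]
    have hco' := hco (lamPath lam) _ (prof_lamPath lam)
    rw [lamPath_top lam (show R₀ ≤ R₀ - 1 + 1 by omega)] at hco'
    have hbL : b * L ≤ L := mul_le_of_le_one_left hL0 hb1
    obtain ⟨h1, h2⟩ := confine (L := L + 7) (C := C + (L + 7)) hc hη hη1 lam hpos
      (by linarith [GB_zero_le (n := n) (S := S) (β := β) (q₀ := q₀) (η := η) (lab := lab) hU hsh hR₀ hk hh hu hθ hgN hb.le lam (hn0 lam hlam),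
        GB_low_le (n := n) (S := S) (β := β) (lab := lab) (θ := θ) hE hU hsh hR₀ hk hh hu hub hq hη.le he1 hgN b, hm _ hG.mem]) j
    exact ⟨by linarith, by linarith, by linarith⟩
  have hs := slope_max (n := n) (S := S) (β := β) (lam := lam) hF ha hU hsh hR₀ hk hh hu hq hη.le hK0 hK hb hb1
    hlo hδ hσ (fun i => ⟨by linarith [(hin i).2.1], (hin i).1⟩) (fun i => (hin i).2.2)
    (fun j d hd => hm (Function.update lam j (lam j + d)) (hG.move lam hlam j (hin j).2.1 (hin j).1 d hd)) (hI b hb hb1 lam hlam) (had b lam)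
    hnum he' he0
  have htan : EZ (fun a => FB (n := n) (bwA θ sh lab U b a) R₀ k S β h (Us a) lam) / N ≤
      EZ (fun a => FB (n := n) (bwA θ sh lab U b' a) R₀ k S β h (Us a) lam) / N +
        (b - b') * EZ (fun a => slopeB (n := n) θ (thA θ sh b a) lab U R₀ k S β h (Us a) lam) := by
    have i1 : ∀ a, IntZ (FB (n := n) (bwA θ sh lab U b' a) R₀ k S β h (Us a) lam) := fun a =>
      intZ_FB (fun σ => wJ_pos _ lab U σ) hR hh (hu a)
    have i2 : ∀ a, IntZ (slopeB (n := n) θ (thA θ sh b a) lab U R₀ k S β h (Us a) lam) := fun a =>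
      intZ_of_bound (P157.Par.continuous_ET continuous_wB
        (fun z p => wB_pos (fun σ => wJ_pos (thA θ sh b a) lab U σ) z p) _ _ fun _ => continuous_const)
        (abs_slopeB_le θ (thA θ sh b a) lab hU)
    have h1 : EZ (fun a => FB (n := n) (bwA θ sh lab U b a) R₀ k S β h (Us a) lam) ≤
        EZ (fun a z => FB (n := n) (bwA θ sh lab U b' a) R₀ k S β h (Us a) lam z +
          (b - b') * N * slopeB (n := n) θ (thA θ sh b a) lab U R₀ k S β h (Us a) lam z) :=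
      EZ_mono (fun a => intZ_FB (fun σ => wJ_pos _ lab U σ) hR hh (hu a))
        (fun a => IntZ.addF (i1 a) ((i2 a).const_mul _)) fun a z => by
        have := FB_tangent (S := S) (β := β) (h := h) (u := Us a) (lam := lam) hR θ (thA θ sh b a)
          (thA θ sh b' a) lab U (t := b' - b) (fun j => by unfold thA; ring) z
        simp only [bwA]
        linarith
    rw [EZ_add i1 (fun a => (i2 a).const_mul _), EZ_const_mul] at h1
    refine (div_le_div_of_nonneg_right h1 hN.le).trans_eq ?_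
    rw [add_div]; congr 1
    field_simp
  have herr : errA w θ sh lab U n R₀ k S β h Us b lam ≤ ∑ x ∈ Gd, errA w θ sh lab U n R₀ k S β h Us b x :=
    single_le_sum (f := fun x => errA w θ sh lab U n R₀ k S β h Us b x) (fun x _ =>
      errA_nonneg (n := n) (S := S) (β := β) (h := h) (Us := Us) (sh := sh) (lab := lab) (lam := x) ha hR hU hb) hlam
  have h0 := errA_nonneg (n := n) (S := S) (β := β) (h := h) (Us := Us) (sh := sh) (lab := lab) (lam := lam) ha hR hU hb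
  have h4 : (∑ j, |θ j|) / 2 * errA w θ sh lab U n R₀ k S β h Us b lam ≤
      L / 2 * ∑ x ∈ Gd, errA w θ sh lab U n R₀ k S β h Us b x :=
    mul_le_mul (by linarith) herr h0 (by linarith)
  have h5 := mul_le_mul_of_nonneg_left
    (show EZ (fun a => slopeB (n := n) θ (thA θ sh b a) lab U R₀ k S β h (Us a) lam) ≤
      slopeI w θ R₀ q₀ b + (ω + K * (e' + R₀ * (v / σ + σ))) / 2 +
        L / 2 * ∑ x ∈ Gd, errA w θ sh lab U n R₀ k S β h Us b x by linarith) (sub_nonneg.2 hb')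
  simp only [GB]
  linarith

/-- **the pressure at one frame** -/
theorem climb_U (hF : FieldB) (hE : GeB) (ha : Atoms w θ) (hU : Orth U) {ub : ℝ} (hub : 0 ≤ ub) (hub1 : ub ≤ 1)
    (hsh : ∀ a j, |sh a j| ≤ ub)
    (hR₀ : 1 ≤ R₀) (hk : 1 ≤ k) (hh : ∀ j, |h j| ≤ 1) (hu : ∀ a j, |Us a j| ≤ 1) {h₀ : ℕ → ℝ} {V₀ : ℝ}
    (hh₀ : Prof R₀ h₀ V₀) {c C : ℝ} (hc : 0 < c)
    (hco : ∀ (g : ℕ → ℝ) (V : ℝ), Prof R₀ g V → psiH R₀ g + dotH R₀ g (qh R₀ h₀) / 2 ≤ C - c * g (R₀ - 1))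
    {Gd : Finset (Fin R₀ → ℝ)} {l1 lo hi δ : ℝ} (hG : GridOK Gd l1 lo hi δ) (hlo : 0 < lo) (hδ : 0 < δ)
    (hη : 0 < η) (hη1 : η ≤ 1) {ε : ℝ} (hε : ε ≤ 1) (hlog : η * (R₀ * log hi) ≤ ε)
    (he1 : R₀ * (l1 ^ 2 + η * |log l1|) ≤ 2 * ε) (hgN : gainCap S β / N ≤ ε) (hubε : ub ≤ ε) {L : ℝ}
    (hL : ∑ j, |θ j| ≤ L)
    (hhi : √(2 * ((C + (L + 7)) + (L + 7) + R₀ / (2 * c)) / c) + δ ≤ hi)
    (hx1 : lo + δ ≤ exp (-((C + (L + 7)) + (L + 7) + R₀ / (2 * c)) / η))
    (hx2 : 2 * δ ≤ exp (-((C + (L + 7)) + (L + 7) + R₀ / (2 * c)) / η))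
    {ω K e t σ v e' : ℝ} (hK0 : 0 ≤ K) (hK : ∀ y ∈ Set.Icc (0:ℝ) 1,
      ∀ y' ∈ Set.Icc (0:ℝ) 1, ∀ x : ℝ, 0 ≤ x → y ≤ y' + x → slopeR w θ y ≤ slopeR w θ y' + ω + K * x)
    (hσ : 0 < σ) (hnum : 2 * e + 12 * hi * t + 2 * thMax N R₀ η lo hi δ (ub * N) (gainCap S β) ≤ lo * v)
    (he' : (e + thMax N R₀ η lo hi δ (ub * N) (gainCap S β)) / lo ≤ e') (he0 : 0 ≤ e') (nb : ℕ)
    (hn0 : ∀ lam ∈ Gd, ∀ a, |meanZ (FB (N := N) (n := n) (fun _ => 1) R₀ k S β h (Us a) lam) -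
        N * (psiH R₀ (lamPath lam) + lamPath lam R₀ / 2)| ≤ gainCap S β + N * ε)
    (hI : ∀ b : ℝ, 0 < b → b ≤ 1 → ∀ lam ∈ Gd, ∀ a (j : Fin R₀),
      |meanZ (fun z => HB (n := n) (bwA θ sh lab U b a) R₀ k S β h (Us a) lam z j) -
        lam j * N * (1 - tailAvg (k * R₀) (j * k) fun l =>
          meanZ fun z => rB (n := n) (bwA θ sh lab U b a) R₀ k S β h (Us a) lam z l)| ≤ N * e ∧
      |meanZ (fun z => HB (n := n) (bwA θ sh lab U b a) R₀ k S β h (Us a) lam z j *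
          tailAvg (k * R₀) (j * k) (rB (n := n) (bwA θ sh lab U b a) R₀ k S β h (Us a) lam z)) -
        lam j * N * meanZ (fun z =>
          (1 - tailAvg (k * R₀) (j * k) (rB (n := n) (bwA θ sh lab U b a) R₀ k S β h (Us a) lam z)) *
            tailAvg (k * R₀) (j * k) (rB (n := n) (bwA θ sh lab U b a) R₀ k S β h (Us a) lam z))| ≤
        N * (12 * |lam j| * meanZ (fun z =>
          adev (k * R₀) (wB (n := n) (bwA θ sh lab U b a) R₀ k S β h (Us a) lam z) (ovK (spinX cfg (k * R₀)))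
            (rB (n := n) (bwA θ sh lab U b a) R₀ k S β h (Us a) lam z)) + e))
    (had : ∀ b lam, EZ (fun a => adB (n := n) (bwA θ sh lab U b a) R₀ k S β h (Us a) lam) ≤ t) :
    pressure 1 (fun i => θ (lab i)) U ≤
      spinH R₀ h₀ + energy w θ R₀ (qh R₀ h₀) 1 + L / ((nb:ℝ) + 1) + 10 * ε +
        (ω + K * (e' + R₀ * (v / σ + σ))) / 2 +
        L / 2 * ∑ i ∈ range (nb + 1), 1 / ((nb:ℝ) + 1) *
          ∑ lam ∈ Gd, errA w θ sh lab U n R₀ k S β h Us (((i:ℝ) + 1) / (nb + 1)) lam := by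
  have hN : (0:ℝ) < N := by exact_mod_cast Nat.pos_of_ne_zero (NeZero.ne N)
  have hR : 1 ≤ k * R₀ := (base_bwA (θ := θ) (lab := lab) (h := h) (Us := Us) hU hsh hR₀ hk hh hu 0).kR
  obtain ⟨hq, hq1⟩ := qh_prof hR₀ hh₀
  set q₀ := qh R₀ h₀
  have hθ : ∀ j, |θ j| ≤ L := fun j =>
    (single_le_sum (f := fun j => |θ j|) (fun _ _ => abs_nonneg _) (mem_univ j)).trans hL
  have hL0 : 0 ≤ L := (sum_nonneg fun j _ => abs_nonneg _).trans hL
  set Gb := fun b lam => GB (bwA θ sh lab U b) n R₀ k S β h Us q₀ η lam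
  have hne : Gd.Nonempty := ⟨_, hG.mem⟩
  have hzero := GB_zero_le (n := n) (S := S) (β := β) (q₀ := q₀) (η := η) (θ := θ) (lab := lab) (L := L) (ε := ε) hU hsh hR₀ hk hh hu
    hθ hgN (le_refl (0:ℝ))
  have hlow := GB_low_le (n := n) (S := S) (β := β) (lab := lab) (θ := θ) hE hU hsh hR₀ hk hh hu hub hq hη.le he1 hgN
  have hstep := fun (b b' : ℝ) (hb : 0 < b) (hb1 : b ≤ 1) (hb' : b' ≤ b) => climb_step (n := n) (S := S) (β := β)
    hF hE ha hU hsh hR₀ hk hh hu hub hh₀ hc hco hG hlo hδ hη hη1 hε hub1 he1 hgN hL hhi hx1 hx2 hK0 hK hσ hnum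
    he' he0 hb hb1 hb' hn0 hI had
  -- the climb
  set d := 1 / ((nb:ℝ) + 1) with hd
  set W := (ω + K * (e' + R₀ * (v / σ + σ))) / 2
  set E := fun i : ℕ => ∑ x ∈ Gd, errA w θ sh lab U n R₀ k S β h Us (((i:ℝ) + 1) / (nb + 1)) x
  have hclimb : ∀ i ≤ nb + 1, ∀ x ∈ Gd, Gb ((i:ℝ) / (nb + 1)) x ≤ spinH R₀ h₀ + ε + (ub / 2 + 4 * ε) +
      ∑ l ∈ range i, d * (slopeI w θ R₀ q₀ (((l:ℝ) + 1) / (nb + 1)) + W + L / 2 * E l) := by
    intro i
    induction i with
    | zero =>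
      intro _ x hx
      have h1 := hzero x (hn0 x hx)
      have h2 := psi_tangent hR₀ ((prof_lamPath x).weaken (le_max_left _ V₀)) (hh₀.weaken (le_max_right _ _))
      have : η * ∑ l, log (x l) ≤ ε := by
        refine le_trans ?_ hlog
        refine mul_le_mul_of_nonneg_left ((sum_le_card_nsmul _ _ (log hi) fun l _ =>
          log_le_log (hG.box x hx l).1 (hG.box x hx l).2).trans_eq ?_) hη.le
        rw [nsmul_eq_mul, card_univ, Fintype.card_fin]
      simp only [zero_mul, zero_add] at h1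
      simp only [CharP.cast_eq_zero, zero_div, range_zero, sum_empty, add_zero, spinH]
      linarith
    | succ i ih =>
      intro hi' x hx
      have hb : (0:ℝ) < ((i + 1 : ℕ) : ℝ) / (nb + 1) := by positivity
      have hb1 : ((i + 1 : ℕ) : ℝ) / (nb + 1) ≤ 1 := by
        rw [div_le_one (by positivity)]; exact_mod_cast hi'
      obtain ⟨lam, hlam, hm, hst⟩ := hstep _ ((i:ℝ) / (nb + 1)) hb hb1
        (div_le_div_of_nonneg_right (by push_cast; linarith) (by positivity))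
      rw [show ((i + 1 : ℕ) : ℝ) / ((nb:ℝ) + 1) - (i:ℝ) / (nb + 1) = d by rw [hd]; push_cast; ring] at hst
      refine (hm x hx).trans (hst.trans ?_)
      rw [sum_range_succ]
      have := ih (by omega) lam hlam
      simp only [E]
      push_cast
      linarith
  have htop := hclimb (nb + 1) le_rfl _ hG.mem
  rw [show ((nb + 1 : ℕ) : ℝ) / ((nb:ℝ) + 1) = 1 by push_cast; exact div_self (by positivity)] at htop
  have hl1 := hlow 1
  simp only [one_mul] at hl1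
  rw [← pressure_eq] at hl1
  have hsum : ∑ l ∈ range (nb + 1), d * (slopeI w θ R₀ q₀ (((l:ℝ) + 1) / (nb + 1)) + W + L / 2 * E l) ≤
      energy w θ R₀ q₀ 1 + L / ((nb:ℝ) + 1) + W + L / 2 * ∑ l ∈ range (nb + 1), d * E l := by
    simp only [mul_add, sum_add_distrib]
    have h1 := slope_sum ha hq nb
    have h2 : (∑ j, |θ j|) / ((nb:ℝ) + 1) ≤ L / ((nb:ℝ) + 1) := div_le_div_of_nonneg_right hL (by positivity)
    have h3 : ∑ _l ∈ range (nb + 1), d * W = W := by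
      rw [sum_const, card_range, nsmul_eq_mul, hd]; push_cast; field_simp
    have h4 : ∑ l ∈ range (nb + 1), d * (L / 2 * E l) = L / 2 * ∑ l ∈ range (nb + 1), d * E l := by
      rw [mul_sum]; exact sum_congr rfl fun l _ => by ring
    linarith
  simp only [E] at hsum ⊢
  linarith

end Vale.Agent.P166.Gen.Up
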