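import Vale.Agent.P157.Full.PertX
import Vale.Agent.P166.Gen.Up.EnvU

/-!
Averages over the frame, the strengths and the shifts: concentration of the kernels on the grid, and the mean
error of the rotation identities from the two-sided hypothesis of those identities.
-/

open MeasureTheory ProbabilityTheory Real Finset Filter
open Vale.Agent.P150 (gauss)
open Vale.Agent.P168.MP (lin Batch avg avg_le_avg avg_const avg_prod_eq allBatch BIdx gu gu_mem)
open Vale.Agent.P157.Full (MarkX spinX pwX cfg)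
open Vale.Agent.P157.Par (Site Ix adev ovK qlev)

noncomputable section

namespace Vale.Agent.P166.Gen.Up

variable {N n R : ℕ} [NeZero N] {A : Type} [Fintype A]

omit [NeZero N] in
lemma EZ_le_of_avg {F : A → (Fin N × Ix R n → ℝ) → ℝ} {c : ℝ} (hF : ∀ a, IntZ (F a))
    (h : ∀ z, avg (fun a => F a z) ≤ c) : EZ F ≤ c := by
  have e : EZ F = meanZ fun z => avg fun a => F a z := by
    simp only [EZ, avg, meanZ, integral_div, integral_finsetSum _ fun a _ => hF a]
  rw [e]
  refine (integral_mono ((integrable_finsetSum _ fun a _ => hF a).div_const _) (intZ_const c) h).trans_eq ?_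
  rw [integral_const, probReal_univ, one_smul]

omit [NeZero N] in
/-- bounded continuous functions of frame and field are integrable -/
lemma integrable_pair {ν : Measure (Mat N)} [IsFiniteMeasure ν] (hν : ∀ᵐ U ∂ν, Orth U)
    {P : Mat N → (Fin N × Ix R n → ℝ) → ℝ} (hP : Continuous fun x : Mat N × (Fin N × Ix R n → ℝ) => P x.1 x.2)
    {C : ℝ} (hC : ∀ U, Orth U → ∀ z, |P U z| ≤ C) :
    Integrable (fun x : Mat N × (Fin N × Ix R n → ℝ) => P x.1 x.2) (ν.prod (gauss (Fin N × Ix R n))) := by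
  refine Integrable.of_bound hP.aestronglyMeasurable C ?_
  filter_upwards [Measure.quasiMeasurePreserving_fst.ae hν] with x hx
  exact (Real.norm_eq_abs _).trans_le (hC _ hx _)

omit [NeZero N] in
/-- **a mean error from a mean deviation** -/
theorem int_EZ_le {ν : Measure (Mat N)} [IsProbabilityMeasure ν] (hν : ∀ᵐ U ∂ν, Orth U) [Nonempty A]
    {P D : A → Mat N → (Fin N × Ix R n → ℝ) → ℝ}
    (hPc : ∀ a, Continuous fun x : Mat N × (Fin N × Ix R n → ℝ) => P a x.1 x.2) {CP : ℝ}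
    (hP : ∀ a U, Orth U → ∀ z, 0 ≤ P a U z ∧ P a U z ≤ CP)
    (hDc : ∀ a, Continuous fun x : Mat N × (Fin N × Ix R n → ℝ) => D a x.1 x.2) {CD : ℝ}
    (hD : ∀ a U, Orth U → ∀ z, 0 ≤ D a U z ∧ D a U z ≤ CD)
    {δ e T : ℝ} (hδ : 0 < δ) (he : 0 ≤ e) (hCP : 0 ≤ CP)
    (hsd : ∀ a z, ∫ U, D a U z ∂ν ≤ δ → ∫ U, P a U z ∂ν ≤ e)
    (hT : ∀ U, Orth U → EZ (fun a => D a U) ≤ T) :
    Integrable (fun U => EZ fun a => P a U) ν ∧ ∫ U, EZ (fun a => P a U) ∂ν ≤ e + CP / δ * T := by
  have iP := fun a => integrable_pair hν (hPc a) fun U hU z => by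
    rw [abs_of_nonneg (hP a U hU z).1]; exact (hP a U hU z).2
  have iD := fun a => integrable_pair hν (hDc a) fun U hU z => by
    rw [abs_of_nonneg (hD a U hU z).1]; exact (hD a U hU z).2
  have jP : ∀ a, Integrable (fun U => meanZ (P a U)) ν := fun a => (iP a).integral_prod_left
  have jD : ∀ a, Integrable (fun U => meanZ (D a U)) ν := fun a => (iD a).integral_prod_left
  have swap : ∀ (F : A → Mat N → (Fin N × Ix R n → ℝ) → ℝ),
      (∀ a, Integrable (fun x : Mat N × (Fin N × Ix R n → ℝ) => F a x.1 x.2) (ν.prod (gauss (Fin N × Ix R n)))) →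
      ∫ U, EZ (fun a => F a U) ∂ν = EZ fun a z => ∫ U, F a U z ∂ν := fun F hF => by
    simp only [EZ, avg, meanZ]
    rw [integral_div, integral_finsetSum _ fun a _ => (hF a).integral_prod_left]
    congr 1
    exact sum_congr rfl fun a _ => integral_integral_swap (hF a)
  refine ⟨(integrable_finsetSum _ fun a _ => jP a).div_const _, ?_⟩
  have kP : ∀ a, IntZ fun z => ∫ U, P a U z ∂ν := fun a => (iP a).integral_prod_right
  have kD : ∀ a, IntZ fun z => ∫ U, D a U z ∂ν := fun a => (iD a).integral_prod_right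
  have hT' : EZ (fun a z => ∫ U, D a U z ∂ν) ≤ T := by
    rw [← swap D iD]
    refine (integral_mono_ae ((integrable_finsetSum _ fun a _ => jD a).div_const _) (integrable_const T)
      (hν.mono fun U hU => hT U hU)).trans_eq ?_
    rw [integral_const, probReal_univ, one_smul]
  have hpt : ∀ a z, ∫ U, P a U z ∂ν ≤ e + CP / δ * ∫ U, D a U z ∂ν := fun a z => by
    have hD0 : 0 ≤ ∫ U, D a U z ∂ν := integral_nonneg_of_ae (hν.mono fun U hU => (hD a U hU z).1)
    rcases le_or_gt (∫ U, D a U z ∂ν) δ with h | h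
    · have : 0 ≤ CP / δ * ∫ U, D a U z ∂ν := mul_nonneg (div_nonneg hCP hδ.le) hD0
      linarith [hsd a z h]
    · have h1 : ∫ U, P a U z ∂ν ≤ CP := by
        refine (integral_mono_of_nonneg (hν.mono fun U hU => (hP a U hU z).1) (integrable_const CP)
          (hν.mono fun U hU => (hP a U hU z).2)).trans_eq ?_
        rw [integral_const, probReal_univ, one_smul]
      have h2 : CP ≤ CP / δ * ∫ U, D a U z ∂ν := by
        rw [div_mul_eq_mul_div, le_div_iff₀ hδ]
        exact mul_le_mul_of_nonneg_left h.le hCP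
      linarith
  rw [swap P iP]
  refine (EZ_mono kP (fun a => IntZ.addF (intZ_const e) ((kD a).const_mul _)) hpt).trans ?_
  rw [EZ_add (fun _ => intZ_const e) (fun a => (kD a).const_mul _), EZ_const, EZ_const_mul]
  have := mul_le_mul_of_nonneg_left hT' (div_nonneg hCP hδ.le)
  linarith

/-! ### the grid of strengths and shifts -/

variable {S R₀ k Kg M m : ℕ} {lab : Fin N → Fin m} {U : Mat N} {θ : Fin m → ℝ} {hp ubp ub : ℝ}

/-- the strengths -/
def strA (k R₀ Kg M m : ℕ) (ubp : ℝ) (a : (BIdx (k * R₀) 2 → Fin Kg) × (Fin m → Fin M)) :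
    BIdx (k * R₀) 2 → ℝ := gu ubp Kg a.1

/-- the shifts -/
def shA (k R₀ Kg M m : ℕ) (ub : ℝ) (a : (BIdx (k * R₀) 2 → Fin Kg) × (Fin m → Fin M)) : Fin m → ℝ := gu ub M a.2

omit [NeZero N] in
lemma avg_swap {X Y : Type} [Fintype X] [Fintype Y] (F : X → Y → ℝ) :
    (avg fun a => avg fun b => F a b) = avg fun b => avg fun a => F a b := by
  simp only [avg, ← sum_div]
  rw [Finset.sum_comm, div_div, div_div, mul_comm]

omit [NeZero N] in
lemma avg_addF {X : Type} [Fintype X] (f g : X → ℝ) : avg (fun x => f x + g x) = avg f + avg g := by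
  simp only [avg, sum_add_distrib, add_div]

variable [Nonempty (BIdx (k * R₀) 2 → Fin Kg)] [Nonempty (Fin m → Fin M)]

omit [Nonempty (BIdx (k * R₀) 2 → Fin Kg)] in
/-- concentration of the overlaps on the grid of strengths -/
lemma adB_grid {t : ℝ} (hgrid : ∀ (Cm : Type) [Fintype Cm] [Nonempty Cm] (cf : Cm → Fin N → Bool)
      (W : List Cm → ℝ), (∀ p, 0 < W p) →
      avg (fun g : BIdx (k * R₀) 2 → Fin Kg =>
        adev (k * R₀) (pwX (S := S) (β := allBatch (k * R₀) 2) cf (k * R₀) W (fun _ => hp) (gu ubp Kg g))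
          (ovK (spinX cf (k * R₀)))
          (qlev (k * R₀) (pwX (S := S) (β := allBatch (k * R₀) 2) cf (k * R₀) W (fun _ => hp) (gu ubp Kg g))
            (spinX cf (k * R₀)))) ≤ t)
    (bw : (Fin m → Fin M) → (Fin N → Bool) → ℝ) (hb : ∀ g σ, 0 < bw g σ) (lam : Fin R₀ → ℝ)
    (z : Fin N × Ix (k * R₀) n → ℝ) :
    avg (fun a : (BIdx (k * R₀) 2 → Fin Kg) × (Fin m → Fin M) =>
      adB (bw a.2) R₀ k S (allBatch (k * R₀) 2) (fun _ => hp) (strA k R₀ Kg M m ubp a) lam z) ≤ t := by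
  rw [avg_prod_eq, avg_swap]
  refine (avg_le_avg fun g => ?_).trans_eq (avg_const _)
  exact hgrid (Site N (n + 1)) cfg (fieldB (bw g) R₀ k lam z) fun p => mul_pos (hb g _) (exp_pos _)

omit [Nonempty (Fin m → Fin M)] in
/-- concentration of the squared norms on the grid of shifts -/
lemma madJ_grid (hR : 1 ≤ k * R₀) {t : ℝ} (hU : Orth U)
    (hwin : ∀ (θ : Fin m → ℝ) {Ω : Type} [Fintype Ω] [Nonempty Ω] (w₀ : List Ω → ℝ), (∀ p, 0 < w₀ p) →
      ∀ (rd : List Ω → Fin N → Bool) (U : Mat N), Orth U →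
      avg (fun g : Fin m → Fin M =>
        madJ (k * R₀) lab U (wU (fun j => θ j + gu ub M g j) lab U w₀ rd) rd) ≤ t)
    {β : BIdx (k * R₀) 2 → Batch} (h : BIdx (k * R₀) 2 → ℝ) (b : ℝ) (lam : Fin R₀ → ℝ)
    (z : Fin N × Ix (k * R₀) n → ℝ) :
    avg (fun a : (BIdx (k * R₀) 2 → Fin Kg) × (Fin m → Fin M) =>
      madJ (k * R₀) lab U
        (wB (wJ (thA θ (shA k R₀ Kg M m ub) b a) lab U) R₀ k S β h (strA k R₀ Kg M m ubp a) lam z)
        (spinX cfg (k * R₀))) ≤ t := by
  rw [avg_prod_eq]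
  refine (avg_le_avg fun g => ?_).trans_eq (avg_const _)
  simp only [wB_eq_wU hR]
  exact hwin (fun j => b * θ j) (w0B R₀ k S β h (gu ubp Kg g) lam z) (w0B_pos z) _ U hU

end Vale.Agent.P166.Gen.Up
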