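import Vale.Agent.P166.Gen.Up.Field
import Vale.Agent.P157.Full.Ends
import Vale.Agent.P157.Full.EndZero

/-! The ends of the envelope over a base weight: without a base the sites decouple, and the fields and the
perturbation cost at most the gain. -/

set_option linter.unusedSectionVars false

open MeasureTheory ProbabilityTheory Finset Filter
open scoped Topology
open Vale.Agent.P150 (gauss dot l1 abs_dot_le)
open Vale.Agent.P168.MP (lin Batch gain1 gainCap logZ0 ok_lin avg)
open Vale.Agent.P157.Full (MarkX cfg plain blockVec lamVec psiH lamPath meanX)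
open Vale.Agent.P157.Par (Site Ix spins)
open Vale.Agent.P157.Lim (wt)

namespace Vale.Agent.P166.Gen.Up

open Vale.Agent.P157

namespace Fld

variable {R₀ k S N n : ℕ} [NeZero N] {ι : Type} [Fintype ι] [DecidableEq ι] {β : ι → Batch} {h u : ι → ℝ}
  {E : (Fin N → Bool) → ℝ} {C : ℝ}

/-- the field value without perturbation -/
noncomputable def plainB (E : (Fin N → Bool) → ℝ) (R₀ k : ℕ) (lam : Fin R₀ → ℝ)
    (z : Fin N × Ix (k * R₀) n → ℝ) : ℝ :=
  logZ0 (k * R₀) (lin (k * R₀)) (fieldB (ex E) R₀ k lam z)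

omit [DecidableEq ι] in
lemma fieldB_pos (lam : Fin R₀ → ℝ) (z : Fin N × Ix (k * R₀) n → ℝ) (p : List (Site N (n + 1))) :
    0 < fieldB (ex E) R₀ k lam z p := mul_pos (Real.exp_pos _) (Real.exp_pos _)

lemma continuous_plainB (lam : Fin R₀ → ℝ) :
    Continuous fun z : Fin N × Ix (k * R₀) n → ℝ => plainB E R₀ k lam z :=
  Par.continuous_logZ0 (fun p => continuous_const.mul
    (Real.continuous_exp.comp (Par.continuous_dot_left _))) (fun z p => fieldB_pos lam z p) _

lemma abs_plainB_le (hC : ∀ σ, |E σ| ≤ C) (hR₀ : 1 ≤ R₀) (hk : 1 ≤ k) (lam : Fin R₀ → ℝ)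
    (z : Fin N × Ix (k * R₀) n → ℝ) : |plainB E R₀ k lam z| ≤ C + Full.lamSum lam * l1 z := by
  refine Par.abs_logZ0_le (ok_lin (Full.Fld.one_le_kR hR₀ hk) (fieldB_pos lam z)) fun p => ?_
  rw [fieldB, Real.log_mul (show ex E (spins (k * R₀) p) ≠ 0 from (Real.exp_pos _).ne') (Real.exp_pos _).ne',
    ex, Real.log_exp, Real.log_exp]
  exact (abs_add_le _ _).trans (add_le_add (hC _) (abs_dot_le (Full.abs_lamVec_le _) z))

lemma integrable_plainB (hC : ∀ σ, |E σ| ≤ C) (hR₀ : 1 ≤ R₀) (hk : 1 ≤ k) (lam : Fin R₀ → ℝ) :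
    Integrable (fun z => plainB (n := n) E R₀ k lam z) (gauss (Fin N × Ix (k * R₀) n)) :=
  ((integrable_const C).add (Par.integrable_l1.const_mul (Full.lamSum lam))).mono'
    (continuous_plainB lam).aestronglyMeasurable (Eventually.of_forall fun z => abs_plainB_le hC hR₀ hk lam z)

lemma abs_FB_sub_plain (hR : 1 ≤ k * R₀) (hh : ∀ j, |h j| ≤ 1) (hu : ∀ j, |u j| ≤ 1) (lam : Fin R₀ → ℝ)
    (z : Fin N × Ix (k * R₀) n → ℝ) :
    |FB (ex E) R₀ k S β h u lam z - plainB E R₀ k lam z| ≤ gainCap S β := by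
  have h1 := Full.abs_logZ0_tilt (Ω := MarkX (Site N (n + 1)) N S β) hR
    (w := fun p => fieldB (ex E) R₀ k lam z (p.map Prod.fst))
    (Y := fun p => ∑ i : ι × Fin S, gain1 (k * R₀) h u (p.map (plain cfg)) i)
    (fun p => fieldB_pos lam z _) (b := gainCap S β) fun p => Full.abs_gain_plain (R := k * R₀) hh hu p
  rw [Vale.Agent.P168.MP.logZ0_prod (w₀ := fieldB (ex E) R₀ k lam z)] at h1
  unfold FB plainB wB Full.pwX
  exact h1

/-- the base alone -/
lemma logZ0_base {R : ℕ} (hR : 1 ≤ R) (E : (Fin N → Bool) → ℝ) :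
    logZ0 R (lin R) (fun p : List (Site N (n + 1)) => ex E (spins R p)) =
      Real.log (∑ σ, wt N σ * ex E σ) := by
  rw [Par.logZ0_last (Ω := Site N (n + 1)) (w := fun p => ex E (spins R p))
    (F := fun o => ex E fun i => (o i).1)
    (ok_lin hR fun p => Real.exp_pos _) hR (fun _ => (false, 0)) (fun o => Real.exp_pos _) fun p _ => rfl]
  congr 1
  have h1 := Vale.Agent.P168.MP.Upper.avg_equiv
    (Equiv.arrowProdEquivProdArrow (Fin N) (fun _ => Bool) (fun _ => Fin (n + 1)))
    (fun o : (Fin N → Bool) × (Fin N → Fin (n + 1)) => ex E o.1)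
  rw [show (fun o : Site N (n + 1) => ex E fun i => (o i).1) = fun o : Site N (n + 1) =>
    ex E ((Equiv.arrowProdEquivProdArrow (Fin N) (fun _ => Bool) (fun _ => Fin (n + 1)) o).1) from rfl, h1,
    Vale.Agent.P168.MP.Upper.avg_fst (B := Fin N → Fin (n + 1)) (ex E), avg, Finset.sum_div]
  exact sum_congr rfl fun σ _ => by simp [wt, div_eq_inv_mul]

/-- the base is below the mean of the plain value -/
lemma base_le_plain (hC : ∀ σ, |E σ| ≤ C) (hR₀ : 1 ≤ R₀) (hk : 1 ≤ k) (lam : Fin R₀ → ℝ) :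
    Real.log (∑ σ, wt N σ * ex E σ) ≤ meanZ (fun z => plainB (n := n) E R₀ k lam z) := by
  have hR : 1 ≤ k * R₀ := Full.Fld.one_le_kR hR₀ hk
  rw [← logZ0_base (n := n) hR E]
  set R := k * R₀
  set w := fun p : List (Site N (n + 1)) => ex E (spins R p)
  have hw : ∀ p, 0 < w p := fun p => Real.exp_pos _
  set c : (Fin N × Ix R n) → ℝ := fun x => Vale.Agent.P168.MP.ext (lin R) w R [] fun p => lamVec R₀ k lam p x
  have hle : ∀ z, logZ0 R (lin R) w + ∑ x, z x * c x ≤ plainB E R₀ k lam z := fun z => by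
    have h1 := Par.ext_le_log_nest (ok_lin hR hw) (fun p => dot (lamVec R₀ k lam p) z) R [] (by simp)
    have h2 := Vale.Agent.P168.MP.logZ0_mul (R := R) (m := lin R) hw
      (Y := fun p => Real.exp (dot (lamVec R₀ k lam p) z)) fun p => Real.exp_pos _
    have h3 : Vale.Agent.P168.MP.ext (lin R) w R [] (fun p => dot (lamVec R₀ k lam p) z) = ∑ x, z x * c x := by
      simp only [dot, c, ← Vale.Agent.P168.MP.ext_const_mul]
      rw [← Vale.Agent.P168.MP.ext_sum]
      simp only [mul_comm]
    show _ ≤ logZ0 R (lin R) fun p => w p * Real.exp (dot (lamVec R₀ k lam p) z)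
    linarith
  have hx : ∀ x : Fin N × Ix R n,
      Integrable (fun z : Fin N × Ix R n → ℝ => z x * c x) (gauss (Fin N × Ix R n)) :=
    fun x => (Par.integrable_l1.mono' (measurable_pi_apply x).aestronglyMeasurable
      (Eventually.of_forall fun z => Vale.Agent.P150.abs_le_l1 z x)).mul_const _
  have hs : Integrable (fun z : Fin N × Ix R n → ℝ => ∑ x, z x * c x)
      (gauss (Fin N × Ix R n)) := integrable_finsetSum _ fun x _ => hx x
  have := integral_mono ((integrable_const (logZ0 R (lin R) w)).add hs) (integrable_plainB hC hR₀ hk lam) hle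
  rw [integral_add' (integrable_const _) hs, integral_const, probReal_univ, one_smul,
    integral_finsetSum _ fun x _ => hx x] at this
  simpa [meanZ, integral_mul_const, Full.integral_coord_zero] using this

lemma ge_E (hC : ∀ σ, |E σ| ≤ C) (hR₀ : 1 ≤ R₀) (hk : 1 ≤ k) (hh : ∀ j, |h j| ≤ 1) (hu : ∀ j, |u j| ≤ 1)
    (lam : Fin R₀ → ℝ) :
    Real.log (∑ σ, wt N σ * ex E σ) - gainCap S β ≤ meanZ (FB (n := n) (ex E) R₀ k S β h u lam) := by
  have h2 := base_le_plain (n := n) hC hR₀ hk lam
  have h3 : meanZ (fun z => plainB (n := n) E R₀ k lam z) ≤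
      meanZ (FB (n := n) (ex E) R₀ k S β h u lam) + gainCap S β := by
    have := integral_mono (integrable_plainB (n := n) hC hR₀ hk lam)
      ((integrable_FB (S := S) (β := β) (h := h) (u := u) hC hR₀ hk lam).add (integrable_const (gainCap S β))) fun z => by
        show plainB E R₀ k lam z ≤ FB (ex E) R₀ k S β h u lam z + gainCap S β
        linarith [(abs_le.1 (abs_FB_sub_plain (E := E) (S := S) (β := β) (Full.Fld.one_le_kR hR₀ hk) hh hu lam z)).1]
    rw [integral_add' (integrable_FB hC hR₀ hk lam) (integrable_const _), integral_const, probReal_univ,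
      one_smul] at this
    simpa [meanZ] using this
  linarith

end Fld

open Fld in
/-- the fields and the perturbation cost at most the gain -/
theorem ge_b : GeB := by
  intro R₀ k S N n _ hR₀ hk ι _ _ β h u hh hu bw hbw lam
  rw [← ex_log hbw]
  exact ge_E (C := ∑ τ, |Real.log (bw τ)|)
    (fun σ => single_le_sum (f := fun τ => |Real.log (bw τ)|) (fun _ _ => abs_nonneg _) (mem_univ σ))
    hR₀ hk hh hu lam

/-- the system without patterns is the system over the unit base -/
lemma FX_zero {R₀ k S N n : ℕ} [NeZero N] {ι : Type} [Fintype ι] [DecidableEq ι] (β : ι → Batch) (h u : ι → ℝ)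
    (lam : Fin R₀ → ℝ) (g : Fin 0 → Fin N → ℝ) :
    Full.FX (n := n) (fun _ => 0) R₀ k S β h u lam g = FB (fun _ => 1) R₀ k S β h u lam := by
  funext z
  simp only [Full.FX, FB, Full.wX, wB]
  congr 2
  funext p
  simp [Full.fieldW, fieldB, Par.base, Par.ham]

/-- without a base weight the sites decouple -/
theorem zero_b : ZeroB := by
  intro R₀ k hR₀ hk ι _ _ β S h u hh hu Λ ε hε
  filter_upwards [Full.meanX_zero (f := fun _ => 0) hR₀ hk β S h u hh hu Λ hε] with n hn N _ lam hlam
  have := hn N lam hlam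
  simpa [meanX, FX_zero, meanZ] using this

end Vale.Agent.P166.Gen.Up
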