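import Vale.Agent.P166.Gen.Up.FieldTail

/-! The field providers over a base weight: convexity, derivative, Lipschitz dependence and the two
integrations by parts, uniformly in base weights with bounded logarithm. -/

set_option linter.unusedSectionVars false

open MeasureTheory ProbabilityTheory Finset Filter
open scoped Topology
open Vale.Agent.P150 (gauss dot l1 l1_nonneg)
open Vale.Agent.P168.MP (lin ET Batch)
open Vale.Agent.P157.Full (MarkX spinX cfg plain blockVec lamVec tailAvg)
open Vale.Agent.P157.Par (Site Ix ovK adev coll)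
open Vale.Agent.P157.Full.Fld (one_le_kR gB blockVec_eq bv_ne dot_lamVec_self_le ET_collX)

namespace Vale.Agent.P166.Gen.Up.Fld

open Vale.Agent.P157

section field

variable {R₀ k S N n : ℕ} [NeZero N] {ι : Type} [Fintype ι] [DecidableEq ι] {β : ι → Batch} {h u : ι → ℝ}
  {E : (Fin N → Bool) → ℝ} {C : ℝ}

lemma integrable_bdd {R : ℕ} {F : (Fin N × Ix R n → ℝ) → ℝ} (hc : Continuous F) {B : ℝ} (hb : ∀ z, |F z| ≤ B) :
    Integrable F (gauss (Fin N × Ix R n)) :=
  Integrable.of_bound hc.aestronglyMeasurable B (Eventually.of_forall fun z => hb z)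

lemma integrable_HB (lam : Fin R₀ → ℝ) (j : Fin R₀) :
    Integrable (fun z => HB (n := n) (ex E) R₀ k S β h u lam z j) (gauss (Fin N × Ix (k * R₀) n)) :=
  Par.integrable_l1.mono' (continuous_HB lam j).aestronglyMeasurable
    (Eventually.of_forall fun z => abs_HB_le lam z j)

lemma integrable_FB (hC : ∀ σ, |E σ| ≤ C) (hR₀ : 1 ≤ R₀) (hk : 1 ≤ k) (lam : Fin R₀ → ℝ) :
    Integrable (fun z => FB (n := n) (ex E) R₀ k S β h u lam z) (gauss (Fin N × Ix (k * R₀) n)) :=
  ((integrable_const (C + gB S β h u)).add (Par.integrable_l1.const_mul (∑ i, |lam i|))).mono'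
    (continuous_FB lam).aestronglyMeasurable
    (Eventually.of_forall fun z => abs_FB_le hC hR₀ hk lam z)

/-- derivative of the mean free energy in an amplitude -/
theorem meanZ_deriv (hC : ∀ σ, |E σ| ≤ C) (hR₀ : 1 ≤ R₀) (hk : 1 ≤ k) (lam : Fin R₀ → ℝ) (j : Fin R₀) :
    HasDerivAt (fun t => meanZ (FB (n := n) (ex E) R₀ k S β h u (Function.update lam j t)))
      (meanZ fun z => HB (n := n) (ex E) R₀ k S β h u lam z j) (lam j) := by
  have hd := (hasDerivAt_integral_of_dominated_loc_of_deriv_le (μ := gauss (Fin N × Ix (k * R₀) n))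
    (F := fun s z => FB (n := n) (ex E) R₀ k S β h u (Function.update lam j s) z)
    (F' := fun s z => HB (ex E) R₀ k S β h u (Function.update lam j s) z j)
    (bound := fun z => l1 z) (Metric.ball_mem_nhds (lam j) one_pos)
    (Eventually.of_forall fun s => (continuous_FB _).aestronglyMeasurable) (integrable_FB hC hR₀ hk _)
    (continuous_HB _ j).aestronglyMeasurable
    (Eventually.of_forall fun z s _ => abs_HB_le _ z j) Par.integrable_l1
    (Eventually.of_forall fun z s _ => by
      simpa [Function.update_idem] using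
        (FB_convex (E := E) (S := S) (β := β) (h := h) (u := u) hR₀ hk (Function.update lam j s) z j).2)).2
  simpa [meanZ, Function.update_eq_self] using hd

/-- the mean field energy is the self term times the amplitude -/
lemma meanZ_HB (hR₀ : 1 ≤ R₀) (hk : 1 ≤ k) (lam : Fin R₀ → ℝ) (j : Fin R₀) :
    meanZ (fun z => HB (n := n) (ex E) R₀ k S β h u lam z j) =
      lam j * meanZ (fun z => QB (n := n) E R₀ k S β h u lam z j) := by
  rw [meanZ, meanZ, ← integral_const_mul]
  have h1 := ibp_test (E := E) (n := n) (S := S) (β := β) (h := h) (u := u) hR₀ hk lam j (φ := fun _ => (1 : ℝ))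
    (φ' := fun _ _ => (0 : ℝ)) continuous_const (fun _ => continuous_const) (C := 1) (C' := 0)
    (fun _ => by simp) (fun _ _ => by simp) (fun x z t => hasDerivAt_const t (1 : ℝ))
  simpa using h1

/-- collisions vanish as the number of labels grows -/
lemma meanZ_CB_le (hC : ∀ σ, |E σ| ≤ C) (hR₀ : 1 ≤ R₀) (hk : 1 ≤ k) {Λ : ℝ}
    (lam : Fin R₀ → ℝ) (hlam : ∀ i, lam i ^ 2 ≤ Λ ^ 2) :
    meanZ (fun z => CB (n := n) E R₀ k S β h u lam z) ≤
      N * (Par.collK N (k * R₀) (N * (R₀ * Λ ^ 2)) (C + gB S β h u) / √((n + 1 : ℕ) : ℝ)) := by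
  classical
  set Kc := Par.collK N (k * R₀) (N * (R₀ * Λ ^ 2)) (C + gB S β h u) / √((n + 1 : ℕ) : ℝ) with hKc
  have hK : 0 ≤ Kc := by rw [hKc]; unfold Par.collK; positivity
  have hR : 1 ≤ k * R₀ := one_le_kR hR₀ hk
  have hi : ∀ (l : ℕ) (i : Fin N), Integrable (fun z => ET (k * R₀) (lin (k * R₀))
      (wB (n := n) (ex E) R₀ k S β h u lam z) [(0, l), (0, 0)]
      fun ps => coll i l [(ps.getD 0 []).map Prod.fst, (ps.getD 1 []).map Prod.fst])
      (gauss (Fin N × Ix (k * R₀) n)) := fun l i =>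
    integrable_bdd (continuous_ET_right lam _ _) (B := 1) fun z =>
      Vale.Agent.P168.MP.ET_bound (wB_pos lam z) fun ps => by
        rw [abs_of_nonneg (Par.coll_nonneg _ _ _)]; unfold Par.coll; split_ifs <;> norm_num
  simp only [meanZ, CB]
  rw [integral_div, integral_finsetSum _ fun l _ => integrable_finsetSum _ fun i _ => hi l i]
  simp only [fun l => integral_finsetSum (μ := gauss (Fin N × Ix (k * R₀) n)) univ fun i (_ : i ∈ univ) => hi l i]
  refine div_le_of_le_mul₀ (Nat.cast_nonneg _) (mul_nonneg (Nat.cast_nonneg _) hK)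
    ((sum_le_card_nsmul _ _ ((N : ℝ) * Kc) fun l hl => ?_).trans_eq (by rw [card_range, nsmul_eq_mul, mul_comm]))
  refine (sum_le_card_nsmul _ _ Kc fun i _ => ?_).trans_eq (by simp)
  have hY : ∀ p, Real.exp (-(C + gB S β h u)) ≤ bE (n := n) E (k * R₀) S β h u p ∧
      bE (n := n) E (k * R₀) S β h u p ≤ Real.exp (C + gB S β h u) := fun p => by
    have := abs_le.1 (abs_log_bE (S := S) (β := β) (h := h) (u := u) hC (k * R₀) p)
    have hp := bE_pos (E := E) (S := S) (β := β) (h := h) (u := u) (k * R₀) p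
    exact ⟨(Real.le_log_iff_exp_le hp).1 this.1, (Real.log_le_iff_le_exp hp).1 this.2⟩
  have ha : ∀ p : List (Site N (n + 1)),
      dot (lamVec R₀ k lam p) (lamVec R₀ k lam p) ≤ (N : ℝ) * (R₀ * Λ ^ 2) := fun p =>
    (dot_lamVec_self_le hk lam p).trans (mul_le_mul_of_nonneg_left
      ((sum_le_card_nsmul _ _ _ fun i _ => hlam i).trans_eq (by simp)) (Nat.cast_nonneg _))
  have ha0 : ∀ p : List (Site N (n + 1)), p.length ≠ k * R₀ → ∀ x, lamVec R₀ k lam p x = 0 := fun p hp x =>
    sum_eq_zero fun i _ => by rw [blockVec_eq, bv_ne hp, mul_zero]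
  simp only [funext (wB_apply (E := E) (S := S) (β := β) (h := h) (u := u) lam _)]
  exact ET_collX hR _ ha ha0 hY i (mem_range.1 hl)

lemma meanZ_tail (lam : Fin R₀ → ℝ) (J : ℕ) :
    meanZ (fun z => tailAvg (k * R₀) J (rB (n := n) (ex E) R₀ k S β h u lam z)) =
      tailAvg (k * R₀) J fun l => meanZ fun z => rB (n := n) (ex E) R₀ k S β h u lam z l := by
  simp only [meanZ, tailAvg]
  rw [integral_div, integral_finsetSum _ fun l _ => integrable_bdd (continuous_rB lam l) fun z => abs_rB_le lam z l]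

/-- the two integrations by parts at one field dimension -/
lemma HB_ibp (hC : ∀ σ, |E σ| ≤ C) (hR₀ : 1 ≤ R₀) (hk : 1 ≤ k) {Λ ε : ℝ}
    (hn : |Λ| * (Par.collK N (k * R₀) (N * (R₀ * Λ ^ 2)) (C + gB S β h u) / √((n + 1 : ℕ) : ℝ)) ≤ ε)
    {lam : Fin R₀ → ℝ} (hlam : ∀ i, 0 ≤ lam i ∧ lam i ≤ Λ) (j : Fin R₀) :
    |meanZ (fun z => HB (n := n) (ex E) R₀ k S β h u lam z j) -
        lam j * N * (1 - tailAvg (k * R₀) (j * k) fun l =>
          meanZ fun z => rB (n := n) (ex E) R₀ k S β h u lam z l)| ≤ N * ε ∧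
      |meanZ (fun z => HB (n := n) (ex E) R₀ k S β h u lam z j *
          tailAvg (k * R₀) (j * k) (rB (n := n) (ex E) R₀ k S β h u lam z)) -
        lam j * N * meanZ (fun z =>
          (1 - tailAvg (k * R₀) (j * k) (rB (n := n) (ex E) R₀ k S β h u lam z)) *
            tailAvg (k * R₀) (j * k) (rB (n := n) (ex E) R₀ k S β h u lam z))| ≤
        N * (12 * |lam j| * meanZ (fun z => adB (n := n) E R₀ k S β h u lam z) + ε) := by
  set T := fun z : Fin N × Ix (k * R₀) n → ℝ =>
    tailAvg (k * R₀) (j * k) (rB (ex E) R₀ k S β h u lam z) with hT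
  set Q := fun z : Fin N × Ix (k * R₀) n → ℝ => QB E R₀ k S β h u lam z j with hQ
  set Cc := fun z : Fin N × Ix (k * R₀) n → ℝ => CB E R₀ k S β h u lam z with hCc
  have cT : Continuous T := continuous_tailB lam _
  have bT : ∀ z, |T z| ≤ 1 := fun z => abs_tailB_le lam z _
  have cQ : Continuous Q := continuous_QB lam j
  have bQ : ∀ z, |Q z| ≤ 2 * N := fun z => abs_QB_le lam z j
  have iC : Integrable Cc (gauss (Fin N × Ix (k * R₀) n)) := integrable_bdd (continuous_CB lam) (B := N) fun z => by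
    rw [abs_of_nonneg (CB_bounds lam z).1]; exact (CB_bounds lam z).2
  have iA : Integrable (fun z => adB (n := n) E R₀ k S β h u lam z) (gauss (Fin N × Ix (k * R₀) n)) :=
    integrable_bdd (continuous_adB lam) (B := 6) fun z => by
      rw [abs_of_nonneg (adB_bounds hR₀ hk lam z).1]; exact (adB_bounds hR₀ hk lam z).2
  have iQ := integrable_bdd cQ bQ
  have iT := integrable_bdd cT bT
  have i1 : Integrable (fun z => (N : ℝ) * (1 - T z)) (gauss (Fin N × Ix (k * R₀) n)) :=
    ((integrable_const 1).sub iT).const_mul _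
  have hnear : ∀ z, |Q z - N * (1 - T z)| ≤ Cc z := fun z => QB_near hR₀ hk lam z j
  have hmC : |lam j| * meanZ Cc ≤ N * ε := by
    have h1 := meanZ_CB_le (N := N) (n := n) (S := S) (β := β) (h := h) (u := u) hC hR₀ hk (Λ := Λ) lam
      fun i => pow_le_pow_left₀ (hlam i).1 (hlam i).2 2
    have h0 : 0 ≤ meanZ Cc := integral_nonneg fun z => (CB_bounds lam z).1
    refine (mul_le_mul (abs_le_abs_of_nonneg (hlam j).1 (hlam j).2) h1 h0 (abs_nonneg _)).trans ?_
    rw [mul_left_comm]
    exact mul_le_mul_of_nonneg_left hn (Nat.cast_nonneg _)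
  refine ⟨?_, ?_⟩
  · have e : meanZ (fun z => (N : ℝ) * (1 - T z)) = N * (1 - tailAvg (k * R₀) (j * k) fun l =>
        meanZ fun z => rB (n := n) (ex E) R₀ k S β h u lam z l) := by
      rw [← meanZ_tail, meanZ, meanZ, integral_const_mul, integral_sub (integrable_const _) iT, integral_const,
        probReal_univ, one_smul]
    rw [meanZ_HB hR₀ hk, mul_assoc, ← e, ← mul_sub, abs_mul]
    refine (mul_le_mul_of_nonneg_left ?_ (abs_nonneg _)).trans hmC
    rw [meanZ, meanZ, ← integral_sub iQ i1]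
    exact abs_integral_le_integral_abs.trans (integral_mono (iQ.sub i1).abs iC hnear)
  · set G := fun z : Fin N × Ix (k * R₀) n → ℝ =>
      ∑ x, FxB E R₀ k S β h u lam z j x * DTB E R₀ k S β h u lam z (j * k) x with hG
    have e1 : ∫ z, HB (n := n) (ex E) R₀ k S β h u lam z j * T z ∂gauss (Fin N × Ix (k * R₀) n) =
        ∫ z, (lam j * Q z * T z + G z) ∂gauss (Fin N × Ix (k * R₀) n) :=
      ibp_test (E := E) (S := S) (β := β) (h := h) (u := u) hR₀ hk lam j (φ := T)
        (φ' := fun x z => DTB E R₀ k S β h u lam z (j * k) x) cT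
        (fun x => continuous_DTB lam (j * k) x) bT (fun x z => abs_DTB_le lam z (j * k) x)
        (fun x z t => hasDerivAt_tailB hR₀ hk lam z (j * k) x t)
    have iG : Integrable G (gauss (Fin N × Ix (k * R₀) n)) := integrable_finsetSum _ fun x _ =>
      integrable_bdd ((continuous_FxB lam j x).mul (continuous_DTB lam _ x)) fun z => by
        rw [abs_mul]
        exact (mul_le_of_le_one_left (abs_nonneg _) (abs_FxB_le lam z j x)).trans (abs_DTB_le lam z _ x)
    have iQT : Integrable (fun z => lam j * Q z * T z) (gauss (Fin N × Ix (k * R₀) n)) :=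
      integrable_bdd ((continuous_const.mul cQ).mul cT) (B := |lam j| * (2 * N)) fun z => by
        rw [abs_mul, abs_mul]
        exact (mul_le_of_le_one_right (mul_nonneg (abs_nonneg _) (abs_nonneg _)) (bT z)).trans
          (mul_le_mul_of_nonneg_left (bQ z) (abs_nonneg _))
    have i1T : Integrable (fun z => lam j * ((N : ℝ) * (1 - T z)) * T z) (gauss (Fin N × Ix (k * R₀) n)) :=
      ((i1.const_mul (lam j)).mul_bdd cT.aestronglyMeasurable (Eventually.of_forall bT))
    have hmul : lam j * (N : ℝ) * meanZ (fun z => (1 - T z) * T z) =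
        ∫ z, lam j * ((N : ℝ) * (1 - T z)) * T z ∂gauss (Fin N × Ix (k * R₀) n) := by
      rw [meanZ, ← integral_const_mul]; congr 1; funext z; ring
    simp only [meanZ] at hmul hmC ⊢
    rw [e1, integral_add iQT iG, hmul, add_sub_right_comm, ← integral_sub iQT i1T, mul_add,
      add_comm ((N : ℝ) * _)]
    refine (abs_add_le _ _).trans (add_le_add ?_ ?_)
    · refine le_trans ?_ hmC
      rw [← integral_const_mul]
      refine abs_integral_le_integral_abs.trans (integral_mono (iQT.sub i1T).abs (iC.const_mul _) fun z => ?_)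
      rw [← sub_mul, ← mul_sub, abs_mul, abs_mul]
      exact (mul_le_of_le_one_right (mul_nonneg (abs_nonneg _) (abs_nonneg _)) (bT z)).trans
        (mul_le_mul_of_nonneg_left (hnear z) (abs_nonneg _))
    · have h0 : 0 ≤ ∫ z, adB (n := n) E R₀ k S β h u lam z ∂gauss (Fin N × Ix (k * R₀) n) :=
        integral_nonneg fun z => (adB_bounds hR₀ hk lam z).1
      refine abs_integral_le_integral_abs.trans ((integral_mono iG.abs (iA.const_mul (6 * (|lam j| * N)))
        fun z => sum_Fx_DTB hk lam z j _).trans ?_)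
      rw [integral_const_mul]
      set A := ∫ z, adB (n := n) E R₀ k S β h u lam z ∂gauss (Fin N × Ix (k * R₀) n)
      linarith [mul_nonneg (mul_nonneg (abs_nonneg (lam j)) (Nat.cast_nonneg (α := ℝ) N)) h0,
        show (N : ℝ) * (12 * |lam j| * A) = 12 * (|lam j| * N * A) by ring,
        show 6 * (|lam j| * (N : ℝ)) * A = 6 * (|lam j| * N * A) by ring]

end field

end Fld

open Fld in
/-- convexity, the derivative and the Lipschitz bound -/
theorem field_b : FieldB := by
  intro R₀ k S N n _ ι _ _ β h u hR₀ hk bw hbw lam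
  rw [← ex_log hbw]
  exact ⟨FB_lip hR₀ hk lam, fun j z => FB_convex hR₀ hk lam z j⟩

open Fld in
/-- the two integrations by parts -/
theorem ibp_b : IbpB := by
  intro R₀ k S N _ ι _ _ β h u hR₀ hk _ _ Λ C ε hε
  set K := P157.Par.collK N (k * R₀) (N * (R₀ * Λ ^ 2)) (C + gB S β h u)
  have hlim : Tendsto (fun n : ℕ => |Λ| * (K / √((n + 1 : ℕ) : ℝ))) atTop (𝓝 0) := by
    have h1 : Tendsto (fun n : ℕ => √((n + 1 : ℕ) : ℝ)) atTop atTop :=
      Real.tendsto_sqrt_atTop.comp (tendsto_natCast_atTop_atTop.comp (tendsto_add_atTop_nat 1))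
    simpa using (h1.const_div_atTop K).const_mul |Λ|
  filter_upwards [hlim.eventually (eventually_le_nhds hε)] with n hn bw hbw hC lam hlam j
  rw [← ex_log hbw]
  exact HB_ibp hC hR₀ hk hn hlam j

end Vale.Agent.P166.Gen.Up
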