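import Vale.Agent.P166.Gen.Up.Defs
import Vale.Agent.P157.Full.FieldBase

/-! The system of site fields over one positive base weight `exp ∘ E`: bounds, continuity in the field,
convexity in the amplitudes, Lipschitz bounds in the field and in the exponent of the base. -/

set_option linter.unusedSectionVars false

open MeasureTheory ProbabilityTheory Finset
open Vale.Agent.P150 (gauss dot l1 l1_nonneg abs_dot_le)
open Vale.Agent.P168.MP (lin ET Batch gain1 logZ0 Ok ok_lin)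
open Vale.Agent.P157.Full (MarkX spinX pwX cfg plain blockVec lamVec)
open Vale.Agent.P157.Par (Site Ix ov adev devOf ovK spins)
open Vale.Agent.P157.Full.Fld (gB one_le_kR blockVec_eq bv abs_bv_le jk_le)

namespace Vale.Agent.P166.Gen.Up.Fld

open Vale.Agent.P157

variable {R₀ k S N n : ℕ} [NeZero N] {ι : Type} [Fintype ι] [DecidableEq ι] {β : ι → Batch} {h u : ι → ℝ}
  {E E' : (Fin N → Bool) → ℝ} {C : ℝ}

/-- the base weight of an exponent -/
noncomputable def ex (E : (Fin N → Bool) → ℝ) : (Fin N → Bool) → ℝ := fun σ => Real.exp (E σ)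

lemma ex_log {bw : (Fin N → Bool) → ℝ} (h : ∀ σ, 0 < bw σ) : ex (fun σ => Real.log (bw σ)) = bw :=
  funext fun σ => Real.exp_log (h σ)

/-- the weight without the site field -/
noncomputable def bE (E : (Fin N → Bool) → ℝ) (R S : ℕ) (β : ι → Batch) (h u : ι → ℝ)
    (p : List (MarkX (Site N (n + 1)) N S β)) : ℝ :=
  Real.exp (E (spins R (p.map Prod.fst)) + ∑ i : ι × Fin S, gain1 R h u (p.map (plain cfg)) i)

omit [DecidableEq ι] in
lemma wB_apply (lam : Fin R₀ → ℝ) (z : Fin N × Ix (k * R₀) n → ℝ)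
    (p : List (MarkX (Site N (n + 1)) N S β)) :
    wB (ex E) R₀ k S β h u lam z p =
      bE E (k * R₀) S β h u p * Real.exp (dot (lamVec R₀ k lam (p.map Prod.fst)) z) := by
  simp only [wB, pwX, fieldB, bE, ex, Real.exp_add]; ring

omit [DecidableEq ι] in
lemma bE_pos (R : ℕ) (p : List (MarkX (Site N (n + 1)) N S β)) : 0 < bE E R S β h u p := Real.exp_pos _

omit [DecidableEq ι] in
lemma wB_pos (lam : Fin R₀ → ℝ) (z : Fin N × Ix (k * R₀) n → ℝ)
    (p : List (MarkX (Site N (n + 1)) N S β)) : 0 < wB (ex E) R₀ k S β h u lam z p := by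
  rw [wB_apply]; exact mul_pos (bE_pos _ _) (Real.exp_pos _)

lemma ok_wB (hR₀ : 1 ≤ R₀) (hk : 1 ≤ k) (lam : Fin R₀ → ℝ) (z : Fin N × Ix (k * R₀) n → ℝ) :
    Ok (k * R₀) (lin (k * R₀)) (wB (ex E) R₀ k S β h u lam z) :=
  ok_lin (one_le_kR hR₀ hk) (wB_pos lam z)

omit [DecidableEq ι] in
lemma abs_log_bE (hC : ∀ σ, |E σ| ≤ C) (R : ℕ) (p : List (MarkX (Site N (n + 1)) N S β)) :
    |Real.log (bE E R S β h u p)| ≤ C + gB S β h u := by
  rw [bE, Real.log_exp]
  refine (abs_add_le _ _).trans (add_le_add (hC _) ?_)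
  refine (abs_sum_le_sum_abs _ _).trans (sum_le_sum fun i _ => (abs_add_le _ _).trans ?_)
  rw [abs_mul, abs_mul]
  exact add_le_add (mul_le_mul_of_nonneg_left (Vale.Agent.P168.MP.abs_psiH_le _ _ _) (abs_nonneg _))
    (mul_le_of_le_one_right (abs_nonneg _) (Vale.Agent.P168.MP.abs_psi0_le _ _ _))

omit [DecidableEq ι] in
lemma continuous_wB (lam : Fin R₀ → ℝ) (p : List (MarkX (Site N (n + 1)) N S β)) :
    Continuous fun z : Fin N × Ix (k * R₀) n → ℝ => wB (ex E) R₀ k S β h u lam z p := by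
  simp only [wB_apply]
  exact continuous_const.mul (Real.continuous_exp.comp (Par.continuous_dot_left _))

lemma continuous_FB (lam : Fin R₀ → ℝ) :
    Continuous fun z : Fin N × Ix (k * R₀) n → ℝ => FB (ex E) R₀ k S β h u lam z :=
  Par.continuous_logZ0 (fun p => continuous_wB lam p) (fun z p => wB_pos lam z p) _

lemma continuous_HB (lam : Fin R₀ → ℝ) (j : Fin R₀) :
    Continuous fun z : Fin N × Ix (k * R₀) n → ℝ => HB (ex E) R₀ k S β h u lam z j :=
  Par.continuous_ET (fun p => continuous_wB lam p) (fun z p => wB_pos lam z p) _ _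
    fun _ => Par.continuous_dot_left _

lemma continuous_rB (lam : Fin R₀ → ℝ) (l : ℕ) :
    Continuous fun z : Fin N × Ix (k * R₀) n → ℝ => rB (ex E) R₀ k S β h u lam z l :=
  Par.continuous_ET (fun p => continuous_wB lam p) (fun z p => wB_pos lam z p) _ _ fun _ => continuous_const

lemma abs_rB_le (lam : Fin R₀ → ℝ) (z : Fin N × Ix (k * R₀) n → ℝ) (l : ℕ) :
    |rB (ex E) R₀ k S β h u lam z l| ≤ 1 :=
  Vale.Agent.P168.MP.ET_bound (wB_pos lam z) fun _ => Par.abs_ov_le' _ _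

/-- the mean deviation of the overlap kernel -/
noncomputable def adB (E : (Fin N → Bool) → ℝ) (R₀ k S : ℕ) (β : ι → Batch) (h u : ι → ℝ) (lam : Fin R₀ → ℝ)
    (z : Fin N × Ix (k * R₀) n → ℝ) : ℝ :=
  adev (k * R₀) (wB (ex E) R₀ k S β h u lam z) (ovK (spinX cfg (k * R₀))) (rB (ex E) R₀ k S β h u lam z)

lemma continuous_adB (lam : Fin R₀ → ℝ) :
    Continuous fun z : Fin N × Ix (k * R₀) n → ℝ => adB E R₀ k S β h u lam z := by
  have hd : ∀ l, Continuous fun z : Fin N × Ix (k * R₀) n → ℝ =>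
      devOf (k * R₀) (wB (ex E) R₀ k S β h u lam z) (ovK (spinX cfg (k * R₀)))
        (rB (ex E) R₀ k S β h u lam z) l := fun l =>
    Par.continuous_ET (fun p => continuous_wB lam p) (fun z p => wB_pos lam z p) _ _
      fun _ => (continuous_const.sub (continuous_rB lam l)).abs
  unfold adB adev
  exact ((continuous_finsetSum _ fun l _ => hd l).div_const _).add (hd _)

lemma adB_bounds (hR₀ : 1 ≤ R₀) (hk : 1 ≤ k) (lam : Fin R₀ → ℝ) (z : Fin N × Ix (k * R₀) n → ℝ) :
    0 ≤ adB E R₀ k S β h u lam z ∧ adB E R₀ k S β h u lam z ≤ 6 := by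
  refine ⟨Par.adev_nonneg (wB_pos lam z) _ _, ?_⟩
  have h1 := Par.abs_dlv_le (wB_pos (E := E) (S := S) (β := β) (h := h) (u := u) lam z) (one_le_kR hR₀ hk)
    (spinX cfg (k * R₀)) (k * R₀)
  have h2 := Par.devOf_nonneg (wB_pos (E := E) (S := S) (β := β) (h := h) (u := u) lam z)
    (R := k * R₀) (ovK (spinX cfg (k * R₀))) (rB (ex E) R₀ k S β h u lam z) (k * R₀)
  simp only [Par.dlv] at h1
  simp only [adB, rB] at *
  linarith [(abs_le.1 h1).2]

lemma abs_HB_le (lam : Fin R₀ → ℝ) (z : Fin N × Ix (k * R₀) n → ℝ) (j : Fin R₀) :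
    |HB (ex E) R₀ k S β h u lam z j| ≤ l1 z :=
  Vale.Agent.P168.MP.ET_bound (wB_pos lam z) fun _ => Full.Fld.abs_dot_blockVec j _ z

lemma abs_FB_le (hC : ∀ σ, |E σ| ≤ C) (hR₀ : 1 ≤ R₀) (hk : 1 ≤ k) (lam : Fin R₀ → ℝ)
    (z : Fin N × Ix (k * R₀) n → ℝ) :
    |FB (ex E) R₀ k S β h u lam z| ≤ (C + gB S β h u) + (∑ i, |lam i|) * l1 z := by
  refine Par.abs_logZ0_le (ok_wB hR₀ hk lam z) fun p => ?_
  rw [wB_apply, Real.log_mul (bE_pos _ _).ne' (Real.exp_pos _).ne', Real.log_exp]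
  refine (abs_add_le _ _).trans (add_le_add (abs_log_bE hC _ _) (abs_dot_le (fun x => ?_) z))
  refine (abs_sum_le_sum_abs _ _).trans (sum_le_sum fun i _ => ?_)
  rw [abs_mul, blockVec_eq]
  exact mul_le_of_le_one_right (abs_nonneg _) (abs_bv_le (jk_le i) _ x)

/-- **convexity in each amplitude, and the derivative** -/
theorem FB_convex (hR₀ : 1 ≤ R₀) (hk : 1 ≤ k) (lam : Fin R₀ → ℝ) (z : Fin N × Ix (k * R₀) n → ℝ) (j : Fin R₀) :
    ConvexOn ℝ Set.univ (fun t => FB (ex E) R₀ k S β h u (Function.update lam j t) z) ∧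
      HasDerivAt (fun t => FB (ex E) R₀ k S β h u (Function.update lam j t) z)
        (HB (ex E) R₀ k S β h u lam z j) (lam j) := by
  set e : List (MarkX (Site N (n + 1)) N S β) → ℝ := fun p => dot (blockVec (k * R₀) k j (p.map Prod.fst)) z
  have hw : ∀ s t p, wB (ex E) R₀ k S β h u (Function.update lam j t) z p =
      wB (ex E) R₀ k S β h u (Function.update lam j s) z p * Real.exp ((t - s) * e p) := fun s t p => by
    rw [wB_apply, wB_apply, mul_assoc, ← Real.exp_add, Full.Fld.dot_lamVec_update, Full.Fld.dot_lamVec_update]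
    congr 2; simp only [e]; ring
  refine ⟨Full.Fld.convexOn_of_tangent (H := fun s => HB (ex E) R₀ k S β h u (Function.update lam j s) z j)
    fun s t => ?_, ?_⟩
  · have h1 := Full.Fld.logZ0_exp_tangent (ok_wB hR₀ hk (E := E) (h := h) (u := u) (β := β) (S := S)
      (Function.update lam j s) z) fun p => (t - s) * e p
    rw [Vale.Agent.P168.MP.ET_const_mul, ← funext (hw s t)] at h1
    exact h1
  · refine Vale.Agent.P168.MP.hasDerivAt_logZ0
      (w := fun t => wB (ex E) R₀ k S β h u (Function.update lam j t) z) (g := e)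
      (ok_wB hR₀ hk _ z) (fun p => ?_) |>.congr_deriv ?_
    · have e0 : (fun t => wB (ex E) R₀ k S β h u (Function.update lam j t) z p) = fun t =>
          wB (ex E) R₀ k S β h u (Function.update lam j (lam j)) z p * Real.exp ((t - lam j) * e p) :=
        funext fun t => hw (lam j) t p
      rw [e0]
      exact ((((hasDerivAt_id (lam j)).sub_const (lam j)).mul_const (e p)).exp.const_mul _).congr_deriv
        (by simp)
    · rw [Function.update_eq_self]; rfl

/-- Lipschitz in the field -/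
theorem FB_lip (hR₀ : 1 ≤ R₀) (hk : 1 ≤ k) (lam : Fin R₀ → ℝ) (z z' : Fin N × Ix (k * R₀) n → ℝ) :
    |FB (ex E) R₀ k S β h u lam z - FB (ex E) R₀ k S β h u lam z'| ≤
      √(N * ∑ j, lam j ^ 2) * √(∑ x, (z x - z' x) ^ 2) := by
  refine Full.Fld.abs_logZ0_sub_le (ok_wB hR₀ hk lam z') (wB_pos lam z) fun p _ => ?_
  rw [wB_apply, wB_apply, Real.log_mul (bE_pos _ _).ne' (Real.exp_pos _).ne',
    Real.log_mul (bE_pos _ _).ne' (Real.exp_pos _).ne', Real.log_exp, Real.log_exp, add_sub_add_left_eq_sub]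
  have hd : ∀ c : Fin N × Ix (k * R₀) n → ℝ, dot c z - dot c z' = dot c (fun i => z i - z' i) := fun c => by
    simp only [dot, mul_sub, sum_sub_distrib]
  rw [hd]
  exact (Full.Fld.abs_dot_le_sqrt _ _).trans (mul_le_mul_of_nonneg_right
    (Real.sqrt_le_sqrt (Full.Fld.dot_lamVec_self_le hk lam _)) (Real.sqrt_nonneg _))

/-- Lipschitz in the exponent of the base weight -/
theorem FB_base_lip (hR₀ : 1 ≤ R₀) (hk : 1 ≤ k) (lam : Fin R₀ → ℝ) (z : Fin N × Ix (k * R₀) n → ℝ) {δ : ℝ}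
    (hδ : ∀ σ, |E σ - E' σ| ≤ δ) :
    |FB (ex E) R₀ k S β h u lam z - FB (ex E') R₀ k S β h u lam z| ≤ δ := by
  refine Full.Fld.abs_logZ0_sub_le (ok_wB hR₀ hk lam z) (wB_pos lam z) fun p _ => ?_
  rw [wB_apply, wB_apply, Real.log_mul (bE_pos _ _).ne' (Real.exp_pos _).ne',
    Real.log_mul (bE_pos _ _).ne' (Real.exp_pos _).ne', bE, bE]
  simp only [Real.log_exp]
  refine le_trans (le_of_eq ?_) (hδ (spins (k * R₀) (p.map Prod.fst)))
  congr 1; ring

end Vale.Agent.P166.Gen.Up.Fld
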