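import Vale.Agent.P166.Gen.Up.FieldIbp

/-! The self term of a block against the tail of the mean overlaps, and the derivative of that tail, over a base weight. -/

set_option linter.unusedSectionVars false

open MeasureTheory ProbabilityTheory Finset Filter
open Vale.Agent.P150 (gauss dot l1 l1_nonneg)
open Vale.Agent.P168.MP (lin ET Batch Valid Supp att)
open Vale.Agent.P157.Full (MarkX spinX cfg plain blockVec lamVec tailAvg)
open Vale.Agent.P157.Par (Site Ix ov ovK devOf adev coll)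
open Vale.Agent.P157.Full.Fld (one_le_kR blockVec_eq bv abs_bv_le jk_le abs_cv_bv_le cv_block_lam cv_bv_self cv_bv_split abs_lamVec_le spins_fst abs_tailAvg_le att_two_sum_le)

namespace Vale.Agent.P166.Gen.Up.Fld

open Vale.Agent.P157

variable {R₀ k S N n : ℕ} [NeZero N] {ι : Type} [Fintype ι] [DecidableEq ι] {β : ι → Batch} {h u : ι → ℝ}
  {E : (Fin N → Bool) → ℝ}

lemma continuous_tailB (lam : Fin R₀ → ℝ) (J : ℕ) :
    Continuous fun x : (Fin N × Ix (k * R₀) n → ℝ) =>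
      tailAvg (k * R₀) J (rB (ex E) R₀ k S β h u lam x) :=
  (continuous_finsetSum _ fun l _ => continuous_rB lam l).div_const _

lemma abs_tailB_le (lam : Fin R₀ → ℝ) (z : Fin N × Ix (k * R₀) n → ℝ) (J : ℕ) :
    |tailAvg (k * R₀) J (rB (ex E) R₀ k S β h u lam z)| ≤ 1 :=
  abs_tailAvg_le _ _ fun l => abs_rB_le lam z l

/-- mean collisions at the levels of the pairs -/
noncomputable def CB (E : (Fin N → Bool) → ℝ) (R₀ k S : ℕ) (β : ι → Batch) (h u : ι → ℝ) (lam : Fin R₀ → ℝ)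
    (z : Fin N × Ix (k * R₀) n → ℝ) : ℝ :=
  (∑ l ∈ range (k * R₀), ∑ i : Fin N, ET (k * R₀) (lin (k * R₀)) (wB (ex E) R₀ k S β h u lam z) [(0, l), (0, 0)]
    fun ps => coll i l [(ps.getD 0 []).map Prod.fst, (ps.getD 1 []).map Prod.fst]) / (k * R₀ : ℕ)

lemma CB_bounds (lam : Fin R₀ → ℝ) (z : Fin N × Ix (k * R₀) n → ℝ) :
    0 ≤ CB E R₀ k S β h u lam z ∧ CB E R₀ k S β h u lam z ≤ N := by
  have hb : ∀ l (i : Fin N), 0 ≤ ET (k * R₀) (lin (k * R₀)) (wB (ex E) R₀ k S β h u lam z) [(0, l), (0, 0)]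
      (fun ps => coll i l [(ps.getD 0 []).map Prod.fst, (ps.getD 1 []).map Prod.fst]) ∧
      ET (k * R₀) (lin (k * R₀)) (wB (ex E) R₀ k S β h u lam z) [(0, l), (0, 0)]
      (fun ps => coll i l [(ps.getD 0 []).map Prod.fst, (ps.getD 1 []).map Prod.fst]) ≤ 1 := fun l i =>
    ⟨Vale.Agent.P168.MP.ET_nonneg (wB_pos lam z) fun _ => Par.coll_nonneg _ _ _,
      (le_abs_self _).trans (Vale.Agent.P168.MP.ET_bound (wB_pos lam z) fun ps => by
        rw [abs_of_nonneg (Par.coll_nonneg _ _ _)]; unfold Par.coll; split_ifs <;> norm_num)⟩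
  refine ⟨div_nonneg (sum_nonneg fun l _ => sum_nonneg fun i _ => (hb l i).1) (Nat.cast_nonneg _), ?_⟩
  refine div_le_of_le_mul₀ (Nat.cast_nonneg _) (Nat.cast_nonneg _) ?_
  refine (sum_le_card_nsmul _ _ (N : ℝ) fun l _ =>
    (sum_le_card_nsmul _ _ 1 fun i _ => (hb l i).2).trans_eq (by simp)).trans (le_of_eq ?_)
  rw [card_range, nsmul_eq_mul, mul_comm]

lemma continuous_CB (lam : Fin R₀ → ℝ) :
    Continuous fun x : (Fin N × Ix (k * R₀) n → ℝ) => CB E R₀ k S β h u lam x :=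
  (continuous_finsetSum _ fun _ _ => continuous_finsetSum _ fun _ _ => continuous_ET_right lam _ _).div_const _

/-- the self term is the complement of the tail of the overlaps, up to collisions -/
lemma QB_near (hR₀ : 1 ≤ R₀) (hk : 1 ≤ k) (lam : Fin R₀ → ℝ) (z : Fin N × Ix (k * R₀) n → ℝ) (j : Fin R₀) :
    |QB E R₀ k S β h u lam z j -
      N * (1 - tailAvg (k * R₀) (j * k) (rB (ex E) R₀ k S β h u lam z))| ≤ CB E R₀ k S β h u lam z := by
  have hR := one_le_kR hR₀ hk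
  have hRpos : (0 : ℝ) < ((k * R₀ : ℕ) : ℝ) := Nat.cast_pos.2 hR
  set P : ℕ → ℝ := fun l => ET (k * R₀) (lin (k * R₀)) (wB (ex E) R₀ k S β h u lam z) [(0, l), (0, 0)]
    fun ps => dot (blockVec (k * R₀) k j ((ps.getD 0 []).map Prod.fst))
      (blockVec (k * R₀) k j ((ps.getD 1 []).map Prod.fst)) with hP
  set r := rB (ex E) R₀ k S β h u lam z with hr
  have hIco : ∑ l ∈ Ico ((j : ℕ) * k) (k * R₀), r l = ∑ l ∈ range (k * R₀), if (j : ℕ) * k ≤ l then r l else 0 := by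
    rw [← sum_filter]
    exact sum_congr (by ext; simp [and_comm]) fun _ _ => rfl
  have e : QB E R₀ k S β h u lam z j - N * (1 - tailAvg (k * R₀) (j * k) r) =
      -((∑ l ∈ range (k * R₀), (P l - if (j : ℕ) * k ≤ l then (N : ℝ) * r l else 0)) / ((k * R₀ : ℕ) : ℝ)) := by
    simp only [sum_sub_distrib, ← mul_ite_zero, ← mul_sum, ← hIco, QB, tailAvg, hP]
    ring
  rw [e, abs_neg, abs_div, Nat.abs_cast, CB]
  refine div_le_div_of_nonneg_right ((abs_sum_le_sum_abs _ _).trans (sum_le_sum fun l hl => ?_)) hRpos.le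
  have hlR := mem_range.1 hl
  have hT : Valid (k * R₀) [(0, l), (0, 0)] := ⟨Nat.zero_lt_one, hlR.le, rfl, rfl⟩
  have hite : (if (j : ℕ) * k ≤ l then (N : ℝ) * r l else 0) =
      ET (k * R₀) (lin (k * R₀)) (wB (ex E) R₀ k S β h u lam z) [(0, l), (0, 0)] fun ps =>
        (if (j : ℕ) * k ≤ l then (N : ℝ) else 0) * ovK (spinX cfg (k * R₀)) (ps.getD 0 []) (ps.getD 1 []) := by
    rw [Vale.Agent.P168.MP.ET_const_mul, ite_mul, zero_mul]; rfl
  rw [hite, hP, ← Vale.Agent.P168.MP.ET_sub, ← Vale.Agent.P168.MP.ET_sum]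
  refine (Vale.Agent.P168.MP.ET_abs_le (wB_pos lam z) _ _).trans
    (Vale.Agent.P168.MP.ET_mono_on (wB_pos lam z) hT fun ps hs => ?_)
  have e1 := hs.2.2 0 1 (by simp) (by simp)
  simp only [show Vale.Agent.P168.MP.sp (k * R₀) [(0, l), (0, 0)] 0 1 = l by
    simp [Vale.Agent.P168.MP.sp, hlR.le]] at e1
  have l0 := hs.2.1 0 (show 0 < ([(0, l), (0, 0)] : List (ℕ × ℕ)).length by simp)
  have l1 := hs.2.1 1 (show 1 < ([(0, l), (0, 0)] : List (ℕ × ℕ)).length by simp)
  refine le_trans (le_of_eq ?_) (cv_bv_split (J := (j : ℕ) * k) (l := l) (jk_le j)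
    ((List.length_map _).trans l0) ((List.length_map _).trans l1) hlR
    (by rw [← List.map_take, ← List.map_take, e1]))
  rw [spins_fst hR l0, spins_fst hR l1, ite_mul, zero_mul]
  rfl

/-- the derivative of the mean overlap at level `l` -/
noncomputable def DrB (E : (Fin N → Bool) → ℝ) (R₀ k S : ℕ) (β : ι → Batch) (h u : ι → ℝ) (lam : Fin R₀ → ℝ)
    (z : Fin N × Ix (k * R₀) n → ℝ) (l : ℕ) (x : Fin N × Ix (k * R₀) n) : ℝ :=
  ((att (k * R₀) (lin (k * R₀)) [(0, l), (0, 0)]).map fun c => c.2 *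
    ET (k * R₀) (lin (k * R₀)) (wB (ex E) R₀ k S β h u lam z) [c.1, (0, l), (0, 0)] fun ps =>
      (ovK (spinX cfg (k * R₀)) (ps.dropLast.getD 0 []) (ps.dropLast.getD 1 []) -
        rB (ex E) R₀ k S β h u lam z l) * lamVec R₀ k lam ((ps.getLastD []).map Prod.fst) x).sum

lemma hasDerivAt_rB (hR₀ : 1 ≤ R₀) (hk : 1 ≤ k) (lam : Fin R₀ → ℝ) (z : Fin N × Ix (k * R₀) n → ℝ) {l : ℕ} (hl : l ≤ k * R₀) (x : Fin N × Ix (k * R₀) n) (t : ℝ) :
    HasDerivAt (fun s => rB (ex E) R₀ k S β h u lam (Function.update z x s) l)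
      (DrB E R₀ k S β h u lam (Function.update z x t) l x) t := by
  have hT : Valid (k * R₀) [(0, l), (0, 0)] := ⟨Nat.zero_lt_one, hl, rfl, rfl⟩
  set r := rB (ex E) R₀ k S β h u lam (Function.update z x t) l
  have h1 := Vale.Agent.P168.MP.hasDerivAt_ET_const
    (w := fun s => wB (ex E) R₀ k S β h u lam (Function.update z x s))
    (g := fun p : List (MarkX (Site N (n + 1)) N S β) => lamVec R₀ k lam (p.map Prod.fst) x)
    (ok_wB hR₀ hk lam _) (fun p => hasDerivAt_wB lam z x t p) hT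
    fun ps => ovK (spinX cfg (k * R₀)) (ps.getD 0 []) (ps.getD 1 []) - r
  have e : (fun s => ET (k * R₀) (lin (k * R₀)) (wB (ex E) R₀ k S β h u lam (Function.update z x s))
      [(0, l), (0, 0)] fun ps => ovK (spinX cfg (k * R₀)) (ps.getD 0 []) (ps.getD 1 []) - r) =
      fun s => rB (ex E) R₀ k S β h u lam (Function.update z x s) l - r := funext fun s => by
    rw [Vale.Agent.P168.MP.ET_sub, Vale.Agent.P168.MP.ET_const (wB_pos lam _)]; rfl
  rw [e] at h1
  exact (h1.add_const r).congr_of_eventuallyEq (Eventually.of_forall fun s => (sub_add_cancel _ _).symm)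

lemma continuous_DrB (lam : Fin R₀ → ℝ) (l : ℕ)
    (x : Fin N × Ix (k * R₀) n) : Continuous fun z => DrB E R₀ k S β h u lam z l x :=
  continuous_list_sum _ fun _ _ => continuous_const.mul
    (Par.continuous_ET (fun p => continuous_wB lam p) (fun z p => wB_pos lam z p) _ _
      fun _ => (continuous_const.sub
        (continuous_rB lam l)).mul continuous_const)

lemma abs_DrB_le (lam : Fin R₀ → ℝ) (z : Fin N × Ix (k * R₀) n → ℝ) (l : ℕ)
    (x : Fin N × Ix (k * R₀) n) : |DrB E R₀ k S β h u lam z l x| ≤ 6 * (2 * ∑ i, |lam i|) := by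
  refine (Par.abs_list_sum _ _).trans
    ((Par.list_sum_le (g := fun c => |c.2| * (2 * ∑ i, |lam i|)) fun c _ => ?_).trans ?_)
  · rw [abs_mul]
    refine mul_le_mul_of_nonneg_left (Vale.Agent.P168.MP.ET_bound (wB_pos lam z) fun ps => ?_) (abs_nonneg _)
    rw [abs_mul]
    refine mul_le_mul ((abs_sub _ _).trans ?_) (abs_lamVec_le lam _ x) (abs_nonneg _) zero_le_two
    have := abs_rB_le (E := E) (S := S) (β := β) (h := h) (u := u) lam z l
    have : |ovK (spinX cfg (k * R₀)) (ps.dropLast.getD 0 []) (ps.dropLast.getD 1 [])| ≤ 1 := Par.abs_ov_le' _ _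
    linarith
  · rw [List.sum_map_mul_right]
    exact mul_le_mul_of_nonneg_right (att_two_sum_le l) (mul_nonneg zero_le_two (sum_nonneg fun i _ => abs_nonneg _))

/-- the field energies against the derivative of an overlap: only the deviation remains -/
lemma sum_Fx_DrB (hk : 1 ≤ k) (lam : Fin R₀ → ℝ) (z : Fin N × Ix (k * R₀) n → ℝ) (j : Fin R₀) {l : ℕ} (hl : l ≤ k * R₀) :
    |∑ x, FxB E R₀ k S β h u lam z j x * DrB E R₀ k S β h u lam z l x| ≤
      6 * (|lam j| * N) * devOf (k * R₀) (wB (ex E) R₀ k S β h u lam z) (ovK (spinX cfg (k * R₀)))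
        (rB (ex E) R₀ k S β h u lam z) l := by
  have hw := wB_pos (E := E) (S := S) (β := β) (h := h) (u := u) lam z
  have hT : Valid (k * R₀) [(0, l), (0, 0)] := ⟨Nat.zero_lt_one, hl, rfl, rfl⟩
  set dev := devOf (k * R₀) (wB (ex E) R₀ k S β h u lam z) (ovK (spinX cfg (k * R₀)))
    (rB (ex E) R₀ k S β h u lam z) l with hdev
  have hF : ∀ p : List (Site N (n + 1)),
      |∑ x, FxB E R₀ k S β h u lam z j x * lamVec R₀ k lam p x| ≤ |lam j| * N := fun p => by
    simp only [FxB, ← Vale.Agent.P168.MP.ET_mul_const, ← Vale.Agent.P168.MP.ET_sum]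
    refine Vale.Agent.P168.MP.ET_bound hw fun ps => ?_
    rw [← dot, cv_block_lam hk, abs_mul, blockVec_eq]
    exact mul_le_mul_of_nonneg_left (abs_cv_bv_le (jk_le j) _ _) (abs_nonneg _)
  simp only [DrB, ← List.sum_map_mul_left, ← Vale.Agent.P168.MP.list_sum_map_finset_sum]
  refine (Par.abs_list_sum _ _).trans ((Par.list_sum_le (g := fun c => |c.2| * (|lam j| * N * dev)) fun c hc => ?_).trans ?_)
  · simp only [mul_left_comm _ c.2, ← mul_sum, ← Vale.Agent.P168.MP.ET_const_mul, ← Vale.Agent.P168.MP.ET_sum]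
    refine (Vale.Agent.P168.MP.ET_abs_le hw _ _).trans ?_
    have hb : ET (k * R₀) (lin (k * R₀)) (wB (ex E) R₀ k S β h u lam z) [c.1, (0, l), (0, 0)]
        (fun ps => |ovK (spinX cfg (k * R₀)) (ps.dropLast.getD 0 []) (ps.dropLast.getD 1 []) -
          rB (ex E) R₀ k S β h u lam z l|) = dev := by
      rw [show c.1 = (c.1.1, c.1.2) from rfl, Vale.Agent.P168.MP.ET_cons, hdev, devOf]
      simp only [List.dropLast_concat, Vale.Agent.P168.MP.ext_const hw]
    rw [← hb, ← mul_assoc |c.2|, ← Vale.Agent.P168.MP.ET_const_mul]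
    refine Vale.Agent.P168.MP.ET_mono hw fun ps => ?_
    set o := ovK (spinX cfg (k * R₀)) (ps.dropLast.getD 0 []) (ps.dropLast.getD 1 []) -
      rB (ex E) R₀ k S β h u lam z l
    have e : ∑ x, FxB E R₀ k S β h u lam z j x * (o * lamVec R₀ k lam ((ps.getLastD []).map Prod.fst) x) =
        o * ∑ x, FxB E R₀ k S β h u lam z j x * lamVec R₀ k lam ((ps.getLastD []).map Prod.fst) x := by
      rw [mul_sum]; exact sum_congr rfl fun x _ => by ring
    rw [e, abs_mul, abs_mul, mul_assoc |c.2|, mul_comm |o|]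
    exact mul_le_mul_of_nonneg_left (mul_le_mul_of_nonneg_right (hF _) (abs_nonneg _)) (abs_nonneg _)
  · rw [List.sum_map_mul_right]
    refine (mul_le_mul_of_nonneg_right (att_two_sum_le l) ?_).trans (le_of_eq (by ring))
    exact mul_nonneg (by positivity) (Vale.Agent.P168.MP.ET_nonneg hw fun _ => abs_nonneg _)

/-- the derivative of the tail -/
noncomputable def DTB (E : (Fin N → Bool) → ℝ) (R₀ k S : ℕ) (β : ι → Batch) (h u : ι → ℝ) (lam : Fin R₀ → ℝ)
    (z : Fin N × Ix (k * R₀) n → ℝ) (J : ℕ) (x : Fin N × Ix (k * R₀) n) : ℝ :=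
  (∑ l ∈ Ico J (k * R₀), DrB E R₀ k S β h u lam z l x) / (k * R₀ : ℕ)

lemma hasDerivAt_tailB (hR₀ : 1 ≤ R₀) (hk : 1 ≤ k) (lam : Fin R₀ → ℝ) (z : Fin N × Ix (k * R₀) n → ℝ) (J : ℕ) (x : Fin N × Ix (k * R₀) n) (t : ℝ) :
    HasDerivAt (fun s => tailAvg (k * R₀) J (rB (ex E) R₀ k S β h u lam (Function.update z x s)))
      (DTB E R₀ k S β h u lam (Function.update z x t) J x) t :=
  (HasDerivAt.fun_sum fun _ hl => hasDerivAt_rB hR₀ hk lam z (mem_Ico.1 hl).2.le x t).div_const _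

lemma continuous_DTB (lam : Fin R₀ → ℝ) (J : ℕ)
    (x : Fin N × Ix (k * R₀) n) : Continuous fun z => DTB E R₀ k S β h u lam z J x :=
  (continuous_finsetSum _ fun l _ => continuous_DrB lam l x).div_const _

lemma abs_DTB_le (lam : Fin R₀ → ℝ) (z : Fin N × Ix (k * R₀) n → ℝ) (J : ℕ)
    (x : Fin N × Ix (k * R₀) n) : |DTB E R₀ k S β h u lam z J x| ≤ 6 * (2 * ∑ i, |lam i|) := by
  rw [DTB, abs_div, Nat.abs_cast]
  refine div_le_of_le_mul₀ (Nat.cast_nonneg _) (by positivity) ((abs_sum_le_sum_abs _ _).trans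
    ((sum_le_card_nsmul _ _ _ fun l _ => abs_DrB_le lam z l x).trans ?_))
  rw [nsmul_eq_mul, Nat.card_Ico, mul_comm (6 * _)]
  exact mul_le_mul_of_nonneg_right (Nat.cast_le.2 (Nat.sub_le _ _)) (by positivity)

lemma sum_Fx_DTB (hk : 1 ≤ k) (lam : Fin R₀ → ℝ) (z : Fin N × Ix (k * R₀) n → ℝ) (j : Fin R₀) (J : ℕ) :
    |∑ x, FxB E R₀ k S β h u lam z j x * DTB E R₀ k S β h u lam z J x| ≤
      6 * (|lam j| * N) * adev (k * R₀) (wB (ex E) R₀ k S β h u lam z) (ovK (spinX cfg (k * R₀)))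
        (rB (ex E) R₀ k S β h u lam z) := by
  simp only [DTB, mul_div_assoc', mul_sum, ← sum_div]
  rw [sum_comm, abs_div, Nat.abs_cast]
  have h0 : ∀ l, 0 ≤ devOf (k * R₀) (wB (ex E) R₀ k S β h u lam z) (ovK (spinX cfg (k * R₀)))
      (rB (ex E) R₀ k S β h u lam z) l := fun l =>
    Vale.Agent.P168.MP.ET_nonneg (wB_pos lam z) fun _ => abs_nonneg _
  unfold adev
  rw [mul_add, mul_div_assoc', mul_sum]
  refine le_trans ?_ (le_add_of_nonneg_right (mul_nonneg (by positivity) (h0 _)))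
  refine div_le_div_of_nonneg_right ((abs_sum_le_sum_abs _ _).trans ((sum_le_sum fun l hl =>
    sum_Fx_DrB hk lam z j (mem_Ico.1 hl).2.le).trans ?_)) (Nat.cast_nonneg _)
  exact sum_le_sum_of_subset_of_nonneg (fun l hl => mem_range.2 (mem_Ico.1 hl).2) fun l _ _ =>
    mul_nonneg (by positivity) (h0 l)

end Vale.Agent.P166.Gen.Up.Fld

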